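import Vale.Agent.P108.H504.Cont

/-!
# P108 [EXP]: exact expansion of the peak functional `Θ` in the two digit terms

`O = [m,n]` is the inner object, `[i,m-1]` and `[n+1,j]` the two environments, `p` a level of the left
environment, `q` a level of the right environment.
-/

namespace Vale.Agent.P108.H442

open Vale.Agent.P108.H504

variable (a : ℤ → ℝ) {i j m n p q p' q' : ℤ}

/-- The peak functional `D_[i,j] / (D_[i,m-1] D_[n+1,j])`. -/
noncomputable def Th (i m n j : ℤ) : ℝ := D a i j / (D a i (m - 1) * D a (n + 1) j)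

/-- Left slope `D_[i,m-2] / D_[i,m-1]`. -/
noncomputable def tL (i m : ℤ) : ℝ := D a i (m - 2) / D a i (m - 1)

/-- Right slope `D_[n+2,j] / D_[n+1,j]`. -/
noncomputable def tR (n j : ℤ) : ℝ := D a (n + 2) j / D a (n + 1) j

/-- The bilinear form of the inner object. -/
noncomputable def Bil (m n : ℤ) (A B : ℝ) : ℝ :=
  D a m n - A * D a (m + 1) n - B * D a m (n - 1) + A * B * D a (m + 1) (n - 1)

/-- `β = D_[m+1,n] - B D_[m+1,n-1]`. -/
noncomputable def bet (m n : ℤ) (B : ℝ) : ℝ := D a (m + 1) n - B * D a (m + 1) (n - 1)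

/-- `γ = D_[m,n-1] - A D_[m+1,n-1]`. -/
noncomputable def gam (m n : ℤ) (A : ℝ) : ℝ := D a m (n - 1) - A * D a (m + 1) (n - 1)

/-- `α = D_[m,n] - B D_[m,n-1]`. -/
noncomputable def alp (m n : ℤ) (B : ℝ) : ℝ := D a m n - B * D a m (n - 1)

lemma Bil_eq (m n : ℤ) (A B : ℝ) : Bil a m n A B = alp a m n B - A * bet a m n B := by
  unfold Bil alp bet; ring

/-- `Θ` is the bilinear form at the two slopes. -/
theorem Th_eq (hi : i ≤ m) (hmn : m ≤ n) (hj : n ≤ j) (hL : D a i (m - 1) ≠ 0)
    (hR : D a (n + 1) j ≠ 0) : Th a i m n j = Bil a m n (tL a i m) (tR a n j) := by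
  unfold Th Bil tL tR
  rw [D_cut a hi hmn hj]
  field_simp

/-- perturbation of the bilinear form, exact. -/
lemma Bil_add (m n : ℤ) (A B eL eR : ℝ) : Bil a m n (A + eL) (B + eR) =
    Bil a m n A B - bet a m n B * eL - gam a m n A * eR + eL * eR * D a (m + 1) (n - 1) := by
  unfold Bil bet gam; ring

/-- Wronskian of the inner object. -/
lemma D_wronskian_block (hmn : m ≤ n) :
    D a m n * D a (m + 1) (n - 1) - D a (m + 1) n * D a m (n - 1) = -1 := by
  have h := D_wronskian_right a (u := m) (r := m + 1) (j := n) (by omega) (by omega)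
  have e : m + 1 - 2 = m - 1 := by ring
  rw [e, D_empty] at h
  linarith

/-- `β γ = 1 + Θ₀ D_[m+1,n-1]`. -/
theorem bet_mul_gam (hmn : m ≤ n) (A B : ℝ) :
    bet a m n B * gam a m n A = 1 + Bil a m n A B * D a (m + 1) (n - 1) := by
  have h := D_wronskian_block a hmn
  unfold bet gam Bil
  linear_combination -h

/-- difference of two left slopes, arbitrary levels -/
theorem tL_sub (h1 : p ≤ p') (h2 : p' ≤ m) (hD1 : D a p (m - 1) ≠ 0) (hD2 : D a p' (m - 1) ≠ 0) :
    tL a p m - tL a p' m = D a p (p' - 2) / (D a p (m - 1) * D a p' (m - 1)) := by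
  unfold tL
  have h := D_wronskian_right a (u := p) (r := p') (j := m - 1) h1 (by omega)
  have e : m - 1 - 1 = m - 2 := by ring
  rw [e] at h
  rw [div_sub_div _ _ hD1 hD2, ← h]

/-- difference of two right slopes, arbitrary levels -/
theorem tR_sub (h1 : q' ≤ q) (h2 : n ≤ q') (hD1 : D a (n + 1) q ≠ 0) (hD2 : D a (n + 1) q' ≠ 0) :
    tR a n q - tR a n q' = D a (q' + 2) q / (D a (n + 1) q * D a (n + 1) q') := by
  unfold tR
  have h := D_wronskian_left a (j := n + 1) (r := q') (v := q) h1 (by omega)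
  have e : n + 1 + 1 = n + 2 := by ring
  rw [e] at h
  rw [div_sub_div _ _ hD1 hD2, ← h]

/-- **The left digit term**: contribution of the sites `≤ p` to the left slope. -/
theorem tL_digit (h1 : i ≤ p) (h2 : p < m) (hi : D a i (m - 1) ≠ 0) (hp : D a (p + 1) (m - 1) ≠ 0)
    (hip : D a i (p - 1) ≠ 0) :
    tL a i m - tL a (p + 1) m = 1 / (D a (p + 1) (m - 1) ^ 2 *
      (a p - D a i (p - 2) / D a i (p - 1) - D a (p + 2) (m - 1) / D a (p + 1) (m - 1))) := by
  rw [tL_sub a (by omega) (by omega) hi hp]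
  have e : p + 1 - 2 = p - 1 := by ring
  rw [e]
  have hc := D_concat a (p := i) (q := m - 1) (j := p) (by omega) (by omega)
  have hr := D_right a h1
  have key : D a i (m - 1) = D a i (p - 1) * D a (p + 1) (m - 1) *
      (a p - D a i (p - 2) / D a i (p - 1) - D a (p + 2) (m - 1) / D a (p + 1) (m - 1)) := by
    rw [hc, hr]
    field_simp
  have hne : (a p - D a i (p - 2) / D a i (p - 1) -
      D a (p + 2) (m - 1) / D a (p + 1) (m - 1)) ≠ 0 := by
    intro h0
    rw [h0, mul_zero] at key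
    exact hi key
  rw [key]
  field_simp

/-- **The right digit term**. -/
theorem tR_digit (h1 : q ≤ j) (h2 : n < q) (hj : D a (n + 1) j ≠ 0) (hq : D a (n + 1) (q - 1) ≠ 0)
    (hjq : D a (q + 1) j ≠ 0) :
    tR a n j - tR a n (q - 1) = 1 / (D a (n + 1) (q - 1) ^ 2 *
      (a q - D a (q + 2) j / D a (q + 1) j - D a (n + 1) (q - 2) / D a (n + 1) (q - 1))) := by
  rw [tR_sub a (by omega) (by omega) hj hq]
  have e : q - 1 + 2 = q + 1 := by ring
  rw [e]
  have hc := D_concat a (p := n + 1) (q := j) (j := q - 1) (by omega) (by omega)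
  have e1 : q - 1 + 1 = q := by ring
  have e2 : q - 1 - 1 = q - 2 := by ring
  rw [e1, e2, e] at hc
  have hr := D_left a h1
  have key : D a (n + 1) j = D a (q + 1) j * D a (n + 1) (q - 1) *
      (a q - D a (q + 2) j / D a (q + 1) j - D a (n + 1) (q - 2) / D a (n + 1) (q - 1)) := by
    rw [hc, hr]
    field_simp
  have hne : (a q - D a (q + 2) j / D a (q + 1) j -
      D a (n + 1) (q - 2) / D a (n + 1) (q - 1)) ≠ 0 := by
    intro h0
    rw [h0, mul_zero] at key
    exact hj key
  rw [key]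
  field_simp

/-- The left digit term `1 / (L² (a_p - τ' - ρ))`. -/
noncomputable def eL (i p m : ℤ) : ℝ := 1 / (D a (p + 1) (m - 1) ^ 2 *
      (a p - D a i (p - 2) / D a i (p - 1) - D a (p + 2) (m - 1) / D a (p + 1) (m - 1)))

/-- The right digit term. -/
noncomputable def eR (n q j : ℤ) : ℝ := 1 / (D a (n + 1) (q - 1) ^ 2 *
      (a q - D a (q + 2) j / D a (q + 1) j - D a (n + 1) (q - 2) / D a (n + 1) (q - 1)))

/-- **EXP, exact form.** -/
theorem Th_exp (hmn : m ≤ n) (hip : i ≤ p) (hpm : p < m) (hnq : n < q) (hqj : q ≤ j)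
    (hi : D a i (m - 1) ≠ 0) (hp : D a (p + 1) (m - 1) ≠ 0) (hip' : D a i (p - 1) ≠ 0)
    (hj : D a (n + 1) j ≠ 0) (hq : D a (n + 1) (q - 1) ≠ 0) (hjq' : D a (q + 1) j ≠ 0) :
    Th a i m n j = Bil a m n (tL a (p + 1) m) (tR a n (q - 1))
      - bet a m n (tR a n (q - 1)) * eL a i p m
      - gam a m n (tL a (p + 1) m) * eR a n q j
      + eL a i p m * eR a n q j * D a (m + 1) (n - 1) := by
  rw [Th_eq a (by omega) hmn (by omega) hi hj]
  have h1 : tL a i m = tL a (p + 1) m + eL a i p m := by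
    have := tL_digit a hip hpm hi hp hip'
    unfold eL
    linarith
  have h2 : tR a n j = tR a n (q - 1) + eR a n q j := by
    have := tR_digit a hqj hnq hj hq hjq'
    unfold eR
    linarith
  rw [h1, h2, Bil_add]

/-- right rate: `D_[m,q-1] = Λ α`. -/
theorem rate_right (hmn : m ≤ n) (hnq : n < q) (hq : D a (n + 1) (q - 1) ≠ 0) :
    D a m (q - 1) = D a (n + 1) (q - 1) * alp a m n (tR a n (q - 1)) := by
  have h := D_concat a (p := m) (q := q - 1) (j := n) (by omega) (by omega)
  unfold alp tR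
  rw [h]
  field_simp

/-- left rate: `D_[p+1,m-2] = L A`. -/
theorem rate_left (hp : D a (p + 1) (m - 1) ≠ 0) :
    D a (p + 1) (m - 2) = D a (p + 1) (m - 1) * tL a (p + 1) m := by
  unfold tL
  field_simp

end Vale.Agent.P108.H442
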