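import Vale.Agent.P108.H442.KCont
import Mathlib.Analysis.SpecialFunctions.Exp
import Mathlib.Analysis.SpecificLimits.Basic
import Mathlib.Analysis.Normed.Field.Basic

/-!
# P108: Dirichlet Green function, resolvent perturbation, distortion over a normed field

Complex version of `H504/Green.lean`.
-/

namespace Vale.Agent.P108.KC

open Finset

variable {R : Type*} [NormedField R]
variable {a a' : ℤ → R} {p q i j : ℤ}

/-- The Dirichlet Green function on `[p, q]`. -/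
noncomputable def G (a : ℤ → R) (p q j i : ℤ) : R :=
  if j ≤ i then D a p (j - 1) * D a (i + 1) q / D a p q
  else D a p (i - 1) * D a (j + 1) q / D a p q

lemma G_of_le (a : ℤ → R) (p q : ℤ) (h : j ≤ i) :
    G a p q j i = D a p (j - 1) * D a (i + 1) q / D a p q := if_pos h

lemma G_of_ge (a : ℤ → R) (p q : ℤ) (h : i ≤ j) :
    G a p q j i = D a p (i - 1) * D a (j + 1) q / D a p q := by
  rcases eq_or_lt_of_le h with h' | h'
  · subst h'; exact G_of_le a p q le_rfl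
  · exact if_neg (not_le.2 h')

lemma G_left (a : ℤ → R) (q : ℤ) (h : p ≤ i) : G a p q (p - 1) i = 0 := by
  rw [G_of_le a p q (by omega), D_of_le a (show p - 1 - 1 ≤ p - 2 by omega)]
  simp

lemma G_right (a : ℤ → R) (p : ℤ) (h : i ≤ q) : G a p q (q + 1) i = 0 := by
  have e : q + 1 + 1 = q + 2 := by ring
  rw [G_of_ge a p q (by omega), e, D_zero']
  simp

/-- `H G = 1`. -/
lemma G_eq (hD : D a p q ≠ 0) (hj1 : p ≤ j) (hj2 : j ≤ q) :
    a j * G a p q j i - G a p q (j - 1) i - G a p q (j + 1) i = if j = i then 1 else 0 := by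
  rcases lt_trichotomy j i with h | h | h
  · rw [if_neg h.ne, G_of_le a p q h.le, G_of_le a p q (by omega : j - 1 ≤ i),
      G_of_le a p q (by omega : j + 1 ≤ i)]
    have := D_right a hj1
    have e1 : j - 1 - 1 = j - 2 := by ring
    have e2 : j + 1 - 1 = j := by ring
    rw [e1, e2, this]
    ring
  · subst h
    rw [if_pos rfl, G_of_le a p q le_rfl, G_of_le a p q (by omega : j - 1 ≤ j),
      G_of_ge a p q (by omega : j ≤ j + 1)]
    have h1 := D_concat a (p := p) (q := q) (j := j) (by omega) hj2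
    have h2 := D_right a hj1
    have e1 : j - 1 - 1 = j - 2 := by ring
    have e2 : j + 1 + 1 = j + 2 := by ring
    rw [e1, e2]
    field_simp
    rw [h1, h2]
    ring
  · rw [if_neg h.ne', G_of_ge a p q h.le, G_of_ge a p q (by omega : i ≤ j - 1),
      G_of_ge a p q (by omega : i ≤ j + 1)]
    have := D_left a hj2
    have e1 : j - 1 + 1 = j := by ring
    have e2 : j + 1 + 1 = j + 2 := by ring
    rw [e1, e2, this]
    ring

/-- Response to the left boundary value. -/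
noncomputable def bl (a : ℤ → R) (p q j : ℤ) : R := D a (j + 1) q / D a p q

/-- Response to the right boundary value. -/
noncomputable def br (a : ℤ → R) (p q j : ℤ) : R := D a p (j - 1) / D a p q

/-- The solution of the inhomogeneous Dirichlet problem. -/
noncomputable def wsol (a : ℤ → R) (p q : ℤ) (s t : R) (f : ℤ → R) (j : ℤ) : R :=
  s * bl a p q j + t * br a p q j + ∑ i ∈ Icc p q, G a p q j i * f i

lemma wsol_left (hD : D a p q ≠ 0) (s t : R) (f : ℤ → R) : wsol a p q s t f (p - 1) = s := by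
  unfold wsol
  have h1 : bl a p q (p - 1) = 1 := by
    unfold bl
    rw [sub_add_cancel, div_self hD]
  have h2 : br a p q (p - 1) = 0 := by
    unfold br
    rw [D_of_le a (show p - 1 - 1 ≤ p - 2 by omega), zero_div]
  rw [h1, h2, Finset.sum_eq_zero]
  · ring
  · intro i hi
    rw [G_left a q (mem_Icc.1 hi).1, zero_mul]

lemma wsol_right (hD : D a p q ≠ 0) (s t : R) (f : ℤ → R) : wsol a p q s t f (q + 1) = t := by
  unfold wsol
  have h1 : br a p q (q + 1) = 1 := by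
    unfold br
    rw [add_sub_cancel_right, div_self hD]
  have h2 : bl a p q (q + 1) = 0 := by
    unfold bl
    rw [show q + 1 + 1 = q + 2 by ring, D_zero', zero_div]
  rw [h1, h2, Finset.sum_eq_zero]
  · ring
  · intro i hi
    rw [G_right a p (mem_Icc.1 hi).2, zero_mul]

lemma wsol_eq (hD : D a p q ≠ 0) (s t : R) (f : ℤ → R) (h1 : p ≤ j) (h2 : j ≤ q) :
    a j * wsol a p q s t f j - wsol a p q s t f (j - 1) - wsol a p q s t f (j + 1) = f j := by
  have e1 : a j * bl a p q j - bl a p q (j - 1) - bl a p q (j + 1) = 0 := by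
    unfold bl
    have := D_left a h2
    rw [show j - 1 + 1 = j by ring, show j + 1 + 1 = j + 2 by ring, this]
    ring
  have e2 : a j * br a p q j - br a p q (j - 1) - br a p q (j + 1) = 0 := by
    unfold br
    have := D_right a h1
    rw [show j - 1 - 1 = j - 2 by ring, show j + 1 - 1 = j by ring, this]
    ring
  have e3 : a j * (∑ i ∈ Icc p q, G a p q j i * f i) - (∑ i ∈ Icc p q, G a p q (j - 1) i * f i) -
      (∑ i ∈ Icc p q, G a p q (j + 1) i * f i) = f j := by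
    rw [mul_sum, ← sum_sub_distrib, ← sum_sub_distrib]
    have : ∀ i ∈ Icc p q, a j * (G a p q j i * f i) - G a p q (j - 1) i * f i -
        G a p q (j + 1) i * f i = if j = i then f i else 0 := by
      intro i hi
      have := G_eq (i := i) hD h1 h2
      have e : a j * (G a p q j i * f i) - G a p q (j - 1) i * f i - G a p q (j + 1) i * f i =
        (a j * G a p q j i - G a p q (j - 1) i - G a p q (j + 1) i) * f i := by ring
      rw [e, this]
      split_ifs <;> simp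
    rw [sum_congr rfl this, Finset.sum_ite_eq, if_pos (mem_Icc.2 ⟨h1, h2⟩)]
  unfold wsol
  linear_combination s * e1 + t * e2 + e3

/-- Uniqueness for the homogeneous Dirichlet problem. -/
lemma eq_zero_of_hom (hD : D a p q ≠ 0) (hpq : p - 1 ≤ q) {w : ℤ → R} (h : IsSol a p q w)
    (h0 : w (p - 1) = 0) (h1 : w (q + 1) = 0) (hj1 : p - 1 ≤ j) (hj2 : j ≤ q + 1) : w j = 0 := by
  have hp : w p = 0 := by
    have := h.eq' (j := q + 1) (by omega) le_rfl
    rw [h1, h0, add_sub_cancel_right, zero_mul, sub_zero] at this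
    exact (mul_eq_zero.1 this.symm).resolve_right hD
  rcases eq_or_lt_of_le hj1 with h' | h'
  · rw [← h', h0]
  · rw [h.eq' (j := j) (by omega) hj2, hp, h0]; ring

/-- Representation of the solution of the inhomogeneous problem. -/
lemma eq_wsol (hD : D a p q ≠ 0) (hpq : p - 1 ≤ q) {w f : ℤ → R}
    (h : ∀ j, p ≤ j → j ≤ q → a j * w j - w (j - 1) - w (j + 1) = f j)
    (hj1 : p - 1 ≤ j) (hj2 : j ≤ q + 1) :
    w j = wsol a p q (w (p - 1)) (w (q + 1)) f j := by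
  have key := eq_zero_of_hom (a := a) (w := fun j => w j - wsol a p q (w (p - 1)) (w (q + 1)) f j)
    hD hpq (fun i h1 h2 => by
      have e1 := h i h1 h2
      have e2 := wsol_eq hD (w (p - 1)) (w (q + 1)) f h1 h2
      simp only
      linear_combination e2 - e1) (by rw [wsol_left hD, sub_self])
    (by rw [wsol_right hD, sub_self]) hj1 hj2
  simpa [sub_eq_zero] using key

/-! ### Perturbation -/

/-- `Γ` dominates the Green function and `Γ |δ| Γ ≤ θ Γ`. -/
structure Dom (a : ℤ → R) (p q : ℤ) (Γ : ℤ → ℤ → ℝ) (δ : ℤ → ℝ) (θ : ℝ) : Prop where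
  bound : ∀ j ∈ Icc p q, ∀ i ∈ Icc p q, ‖G a p q j i‖ ≤ Γ j i
  comp : ∀ j ∈ Icc p q, ∀ i ∈ Icc p q, ∑ l ∈ Icc p q, Γ j l * δ l * Γ l i ≤ θ * Γ j i

lemma Dom.nonneg {Γ : ℤ → ℤ → ℝ} {δ : ℤ → ℝ} {θ : ℝ} (h : Dom a p q Γ δ θ) (hj : j ∈ Icc p q)
    (hi : i ∈ Icc p q) : 0 ≤ Γ j i := (norm_nonneg _).trans (h.bound j hj i hi)

lemma Dom.mono {Γ : ℤ → ℤ → ℝ} {δ δ' : ℤ → ℝ} {θ : ℝ} (h : Dom a p q Γ δ θ)
    (hδ : ∀ l ∈ Icc p q, δ' l ≤ δ l) : Dom a p q Γ δ' θ := by
  refine ⟨h.bound, fun j hj i hi => le_trans ?_ (h.comp j hj i hi)⟩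
  refine sum_le_sum fun l hl => ?_
  have h1 := h.nonneg hj hl
  have h2 := h.nonneg hl hi
  exact mul_le_mul_of_nonneg_right (mul_le_mul_of_nonneg_left (hδ l hl) h1) h2

/-- Iterated inequality. -/
lemma iterate_bound {Γ : ℤ → ℤ → ℝ} {δ : ℤ → ℝ} {θ : ℝ} (h : Dom a p q Γ δ θ) (hθ : 0 ≤ θ)
    (hδ : ∀ l ∈ Icc p q, 0 ≤ δ l) {g : ℤ → R} {i : ℤ} (hi : i ∈ Icc p q) {C : ℝ} (hC : 0 ≤ C)
    (hg : ∀ j ∈ Icc p q, ‖g j‖ ≤ C * Γ j i + ∑ l ∈ Icc p q, Γ j l * δ l * ‖g l‖) (n : ℕ) :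
    ∀ j ∈ Icc p q, ‖g j‖ ≤ C * (∑ m ∈ range (n + 1), θ ^ m) * Γ j i +
      θ ^ n * ∑ l ∈ Icc p q, Γ j l * δ l * ‖g l‖ := by
  induction n with
  | zero => intro j hj; simpa using hg j hj
  | succ n ih =>
    intro j hj
    have h1 := hg j hj
    have h2 : ∑ l ∈ Icc p q, Γ j l * δ l * ‖g l‖ ≤ ∑ l ∈ Icc p q, Γ j l * δ l *
        (C * (∑ m ∈ range (n + 1), θ ^ m) * Γ l i +
          θ ^ n * ∑ l' ∈ Icc p q, Γ l l' * δ l' * ‖g l'‖) :=
      sum_le_sum fun l hl => mul_le_mul_of_nonneg_left (ih l hl)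
        (mul_nonneg (h.nonneg hj hl) (hδ l hl))
    have h3 : ∑ l ∈ Icc p q, Γ j l * δ l *
        (C * (∑ m ∈ range (n + 1), θ ^ m) * Γ l i +
          θ ^ n * ∑ l' ∈ Icc p q, Γ l l' * δ l' * ‖g l'‖) =
        C * (∑ m ∈ range (n + 1), θ ^ m) * (∑ l ∈ Icc p q, Γ j l * δ l * Γ l i) +
        θ ^ n * ∑ l' ∈ Icc p q, (∑ l ∈ Icc p q, Γ j l * δ l * Γ l l') * (δ l' * ‖g l'‖) := by
      have : ∀ l ∈ Icc p q, Γ j l * δ l *
        (C * (∑ m ∈ range (n + 1), θ ^ m) * Γ l i +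
          θ ^ n * ∑ l' ∈ Icc p q, Γ l l' * δ l' * ‖g l'‖) =
        C * (∑ m ∈ range (n + 1), θ ^ m) * (Γ j l * δ l * Γ l i) +
        θ ^ n * ∑ l' ∈ Icc p q, Γ j l * δ l * Γ l l' * (δ l' * ‖g l'‖) := by
        intro l _
        have e0 : ∑ l' ∈ Icc p q, Γ j l * δ l * Γ l l' * (δ l' * ‖g l'‖) =
            Γ j l * δ l * ∑ l' ∈ Icc p q, Γ l l' * δ l' * ‖g l'‖ := by
          rw [mul_sum]
          exact sum_congr rfl fun _ _ => by ring
        rw [e0]
        ring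
      rw [sum_congr rfl this, sum_add_distrib, ← mul_sum, ← mul_sum, sum_comm]
      congr 2
      exact sum_congr rfl fun l' _ => by rw [sum_mul]
    have h4 : ∑ l' ∈ Icc p q, (∑ l ∈ Icc p q, Γ j l * δ l * Γ l l') * (δ l' * ‖g l'‖) ≤
        ∑ l' ∈ Icc p q, (θ * Γ j l') * (δ l' * ‖g l'‖) :=
      sum_le_sum fun l' hl' => mul_le_mul_of_nonneg_right (h.comp j hj l' hl')
        (mul_nonneg (hδ l' hl') (norm_nonneg _))
    have h5 : ∑ l' ∈ Icc p q, (θ * Γ j l') * (δ l' * ‖g l'‖) =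
        θ * ∑ l ∈ Icc p q, Γ j l * δ l * ‖g l‖ := by
      rw [mul_sum]
      exact sum_congr rfl fun _ _ => by ring
    have hsum : 0 ≤ ∑ m ∈ range (n + 1), θ ^ m := sum_nonneg fun _ _ => pow_nonneg hθ _
    have h6 := mul_le_mul_of_nonneg_left (h.comp j hj i hi) (mul_nonneg hC hsum)
    have h7 := mul_le_mul_of_nonneg_left (h4.trans_eq h5) (pow_nonneg hθ n)
    have h8 : ∑ m ∈ range (n + 1 + 1), θ ^ m = 1 + θ * ∑ m ∈ range (n + 1), θ ^ m := by
      rw [sum_range_succ', mul_sum, pow_zero, add_comm]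
      congr 1
      exact sum_congr rfl fun m _ => by rw [pow_succ]; ring
    rw [h8]
    calc ‖g j‖ ≤ C * Γ j i + ∑ l ∈ Icc p q, Γ j l * δ l * ‖g l‖ := h1
      _ ≤ C * Γ j i + (C * (∑ m ∈ range (n + 1), θ ^ m) * (θ * Γ j i) +
          θ ^ n * (θ * ∑ l ∈ Icc p q, Γ j l * δ l * ‖g l‖)) := by
        rw [h3] at h2
        linarith
      _ = _ := by ring

/-- The fixed point inequality. -/
lemma fix_bound {Γ : ℤ → ℤ → ℝ} {δ : ℤ → ℝ} {θ : ℝ} (h : Dom a p q Γ δ θ) (hθ : 0 ≤ θ)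
    (hθ1 : θ < 1) (hδ : ∀ l ∈ Icc p q, 0 ≤ δ l) {g : ℤ → R} {i : ℤ} (hi : i ∈ Icc p q) {C : ℝ}
    (hC : 0 ≤ C)
    (hg : ∀ j ∈ Icc p q, ‖g j‖ ≤ C * Γ j i + ∑ l ∈ Icc p q, Γ j l * δ l * ‖g l‖) :
    ∀ j ∈ Icc p q, ‖g j‖ ≤ C * (1 - θ)⁻¹ * Γ j i := by
  intro j hj
  have h1 := iterate_bound h hθ hδ hi hC hg
  set M := ∑ l ∈ Icc p q, Γ j l * δ l * ‖g l‖ with hM
  have h2 : ∀ n : ℕ, ‖g j‖ ≤ C * (1 - θ)⁻¹ * Γ j i + θ ^ n * M := by
    intro n
    refine (h1 n j hj).trans ?_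
    have h3 : ∑ m ∈ range (n + 1), θ ^ m ≤ (1 - θ)⁻¹ := by
      rw [← tsum_geometric_of_lt_one hθ hθ1]
      exact (summable_geometric_of_lt_one hθ hθ1).sum_le_tsum _ fun _ _ => pow_nonneg hθ _
    have h4 := h.nonneg hj hi
    have := mul_le_mul_of_nonneg_right (mul_le_mul_of_nonneg_left h3 hC) h4
    linarith
  have h3 : Filter.Tendsto (fun n : ℕ => C * (1 - θ)⁻¹ * Γ j i + θ ^ n * M) Filter.atTop
      (nhds (C * (1 - θ)⁻¹ * Γ j i + 0 * M)) :=
    ((tendsto_pow_atTop_nhds_zero_of_lt_one hθ hθ1).mul_const M).const_add _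
  have h4 := ge_of_tendsto' h3 h2
  simpa using h4

/-- **Resolvent perturbation.** -/
theorem perturb {Γ : ℤ → ℤ → ℝ} {δ : ℤ → ℝ} {θ : ℝ} (hD : D a p q ≠ 0) (hpq : p ≤ q)
    (h : Dom a p q Γ δ θ) (hθ : 0 ≤ θ) (hθ1 : θ < 1)
    (hδ : ∀ l ∈ Icc p q, ‖a' l - a l‖ ≤ δ l) :
    D a' p q ≠ 0 ∧ ∀ j ∈ Icc p q, ∀ i ∈ Icc p q, ‖G a' p q j i‖ ≤ (1 - θ)⁻¹ * Γ j i := by
  have hδ0 : ∀ l ∈ Icc p q, 0 ≤ δ l := fun l hl => (norm_nonneg _).trans (hδ l hl)
  have hp : p ∈ Icc p q := mem_Icc.2 ⟨le_rfl, hpq⟩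
  have hD' : D a' p q ≠ 0 := by
    intro h0
    -- a nonzero homogeneous solution for `a'`
    set w : ℤ → R := fun j => D a' p (j - 1) with hw
    have hs : IsSol a' p q w := isSol_D_right a' p q
    have hw0 : w (p - 1) = 0 := D_of_le a' (by omega)
    have hw1 : w (q + 1) = 0 := by simp only [hw, add_sub_cancel_right, h0]
    have hwp : w p = 1 := D_empty a' p
    have e1 : ∀ j, p ≤ j → j ≤ q → a j * w j - w (j - 1) - w (j + 1) = -((a' j - a j) * w j) := by
      intro j h1 h2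
      rw [hs j h1 h2]; ring
    have e2 : ∀ j ∈ Icc p q, ‖w j‖ ≤ 0 * Γ j p + ∑ l ∈ Icc p q, Γ j l * δ l * ‖w l‖ := by
      intro j hj
      have h1 := mem_Icc.1 hj
      rw [eq_wsol hD (by omega) e1 (j := j) (by omega) (by omega), hw0, hw1]
      unfold wsol
      rw [zero_mul, zero_mul, zero_mul, zero_add, zero_add, zero_add]
      refine (norm_sum_le _ _).trans (sum_le_sum fun l hl => ?_)
      rw [norm_mul, norm_neg, norm_mul, mul_assoc]
      exact mul_le_mul (h.bound j hj l hl) (mul_le_mul_of_nonneg_right (hδ l hl) (norm_nonneg _))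
        (by positivity) (h.nonneg hj hl)
    have e3 := fix_bound h hθ hθ1 hδ0 hp le_rfl e2 p hp
    rw [hwp] at e3
    norm_num at e3
  refine ⟨hD', fun j hj i hi => ?_⟩
  have e1 : ∀ j, p ≤ j → j ≤ q → a j * G a' p q j i - G a' p q (j - 1) i - G a' p q (j + 1) i =
      (if j = i then 1 else 0) - (a' j - a j) * G a' p q j i := by
    intro j h1 h2
    have := G_eq (i := i) hD' h1 h2
    linear_combination this
  have e2 : ∀ j ∈ Icc p q, ‖G a' p q j i‖ ≤ 1 * Γ j i +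
      ∑ l ∈ Icc p q, Γ j l * δ l * ‖G a' p q l i‖ := by
    intro j hj
    have h1 := mem_Icc.1 hj
    have e3 := eq_wsol (w := fun j => G a' p q j i) hD (by omega) e1 (j := j) (by omega) (by omega)
    rw [G_left a' q (mem_Icc.1 hi).1, G_right a' p (mem_Icc.1 hi).2] at e3
    unfold wsol at e3
    rw [zero_mul, zero_mul, zero_add, zero_add] at e3
    simp only [mul_sub, sum_sub_distrib, mul_ite, mul_one, mul_zero, Finset.sum_ite_eq', hi,
      if_true] at e3
    rw [e3, one_mul]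
    refine (norm_sub_le _ _).trans (add_le_add (h.bound j hj i hi) ?_)
    refine (norm_sum_le _ _).trans (sum_le_sum fun l hl => ?_)
    rw [norm_mul, norm_mul, mul_assoc]
    exact mul_le_mul (h.bound j hj l hl) (mul_le_mul_of_nonneg_right (hδ l hl) (norm_nonneg _))
      (by positivity) (h.nonneg hj hl)
  have := fix_bound h hθ hθ1 hδ0 hi zero_le_one e2 j hj
  simpa using this

/-- **Distortion of the determinant**, multiplicative form. -/
theorem distortion {Γ : ℤ → ℤ → ℝ} {δ : ℤ → ℝ} {θ : ℝ} (hD : D a p q ≠ 0) (hpq : p ≤ q)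
    (h : Dom a p q Γ δ θ) (hθ : 0 ≤ θ) (hθ1 : θ < 1)
    (hδ : ∀ l ∈ Icc p q, ‖a' l - a l‖ ≤ δ l) :
    ‖D a' p q / D a p q - 1‖ ≤ Real.exp ((1 - θ)⁻¹ * ∑ l ∈ Icc p q, Γ l l * δ l) - 1 := by
  have hδ0 : ∀ l ∈ Icc p q, 0 ≤ δ l := fun l hl => (norm_nonneg _).trans (hδ l hl)
  -- mixed potentials
  set b : ℤ → ℤ → R := fun m l => if l < m then a' l else a l with hb
  have hbp : D (b p) p q = D a p q := D_congr fun j h1 _ => if_neg (by omega)
  have hbq : D (b (q + 1)) p q = D a' p q := D_congr fun j _ h2 => if_pos (by omega)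
  have hstep : ∀ m ∈ Icc p q, ∃ x : R, D (b (m + 1)) p q = D (b m) p q * (1 + x) ∧
      ‖x‖ ≤ (1 - θ)⁻¹ * (Γ m m * δ m) := by
    intro m hm
    have hbδ : ∀ l ∈ Icc p q, ‖b m l - a l‖ ≤ δ l := by
      intro l hl
      simp only [hb]
      split_ifs
      · exact hδ l hl
      · simpa using hδ0 l hl
    obtain ⟨h1, h2⟩ := perturb hD hpq h hθ hθ1 hbδ
    have hu : D (b (m + 1)) p q = D (b m) p q + (b (m + 1) m - b m m) *
        (D (b m) p (m - 1) * D (b m) (m + 1) q) := by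
      refine D_update (mem_Icc.1 hm).1 (mem_Icc.1 hm).2 fun l hl hl2 hlm => ?_
      simp only [hb]
      by_cases hl' : l < m
      · rw [if_pos hl', if_pos (by omega)]
      · rw [if_neg hl', if_neg (by omega)]
    have hbm : b (m + 1) m - b m m = a' m - a m := by
      simp only [hb]
      rw [if_pos (by omega), if_neg (by omega)]
    have hG : D (b m) p (m - 1) * D (b m) (m + 1) q = G (b m) p q m m * D (b m) p q := by
      rw [G_of_le (b m) p q le_rfl]
      field_simp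
    rw [hbm, hG] at hu
    refine ⟨(a' m - a m) * G (b m) p q m m, by rw [hu]; ring, ?_⟩
    rw [norm_mul, mul_comm]
    calc ‖G (b m) p q m m‖ * ‖a' m - a m‖ ≤ ((1 - θ)⁻¹ * Γ m m) * δ m :=
          mul_le_mul (h2 m hm m hm) (hδ m hm) (norm_nonneg _)
            (mul_nonneg (inv_nonneg.2 (by linarith)) (h.nonneg hm hm))
      _ = (1 - θ)⁻¹ * (Γ m m * δ m) := by ring
  -- telescoping
  have hθi : 0 ≤ (1 - θ)⁻¹ := inv_nonneg.2 (by linarith)
  have htel : ∀ n : ℕ, p + n ≤ q + 1 →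
      ‖D (b (p + n)) p q / D (b p) p q - 1‖ ≤
        Real.exp ((1 - θ)⁻¹ * ∑ l ∈ Ico p (p + n), Γ l l * δ l) - 1 := by
    intro n
    induction n with
    | zero =>
      intro _
      have hne : D (b p) p q ≠ 0 := by rw [hbp]; exact hD
      simp [hne]
    | succ n ih =>
      intro hn
      have hm : p + (n : ℤ) ∈ Icc p q := mem_Icc.2 ⟨by omega, by push_cast at hn; omega⟩
      have h1 := ih (by push_cast at hn; omega)
      obtain ⟨x, hx1, hx2⟩ := hstep _ hm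
      have e : p + ((n + 1 : ℕ) : ℤ) = p + (n : ℤ) + 1 := by push_cast; ring
      have hI : Ico p (p + (n : ℤ) + 1) = insert (p + (n : ℤ)) (Ico p (p + (n : ℤ))) := by
        ext l; simp only [mem_Ico, mem_insert]; omega
      rw [e, hI, sum_insert (by simp), hx1]
      set y := D (b (p + (n : ℤ))) p q / D (b p) p q - 1 with hy
      have e2 : D (b (p + (n : ℤ))) p q * (1 + x) / D (b p) p q - 1 = y * (1 + x) + x := by
        rw [hy]; ring
      rw [e2]
      set E := Real.exp ((1 - θ)⁻¹ * ∑ l ∈ Ico p (p + (n : ℤ)), Γ l l * δ l) with hE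
      have hxx : 1 + ‖x‖ ≤ Real.exp ((1 - θ)⁻¹ * (Γ (p + n) (p + n) * δ (p + n))) := by
        have := Real.add_one_le_exp ((1 - θ)⁻¹ * (Γ (p + n) (p + n) * δ (p + n)))
        linarith
      have h3 : ‖y * (1 + x) + x‖ ≤ ‖y‖ * (1 + ‖x‖) + ‖x‖ := by
        refine (norm_add_le _ _).trans (add_le_add ?_ le_rfl)
        rw [norm_mul]
        refine mul_le_mul_of_nonneg_left ?_ (norm_nonneg _)
        refine (norm_add_le _ _).trans ?_
        rw [norm_one]
      have hE1 : 0 ≤ E := (Real.exp_pos _).le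
      have h4 : ‖y‖ * (1 + ‖x‖) + ‖x‖ ≤ E * (1 + ‖x‖) - 1 := by
        have := mul_le_mul_of_nonneg_right h1 (by positivity : 0 ≤ 1 + ‖x‖)
        nlinarith
      have h5 : E * (1 + ‖x‖) ≤ E * Real.exp ((1 - θ)⁻¹ * (Γ (p + n) (p + n) * δ (p + n))) :=
        mul_le_mul_of_nonneg_left hxx hE1
      have h6 : E * Real.exp ((1 - θ)⁻¹ * (Γ (p + n) (p + n) * δ (p + n))) =
          Real.exp ((1 - θ)⁻¹ * (Γ (p + n) (p + n) * δ (p + n) +
            ∑ l ∈ Ico p (p + (n : ℤ)), Γ l l * δ l)) := by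
        rw [hE, ← Real.exp_add]; congr 1; ring
      linarith
  obtain ⟨n, hn⟩ := Int.le.dest (show p ≤ q + 1 by omega)
  have := htel n hn.le
  rw [hn, hbq, hbp] at this
  have hI : Ico p (q + 1) = Icc p q := by ext l; simp only [mem_Ico, mem_Icc]; omega
  rwa [hI] at this

end Vale.Agent.P108.KC
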