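import Vale.Agent.P108.H442.Slice
import Vale.Agent.P108.Sk.Blocks

/-!
# P108 [PEAKLINE] from the zone lemma
-/

namespace Vale.Agent.P108.H442

open Finset MeasureTheory Filter
open Vale.Agent.P108 Vale.Agent.P108.Dyn Vale.Agent.P108.H504 Vale.Agent.P108.H786
  Vale.Agent.P108.Area Vale.Agent.P108.Sk P108C

open Classical in
/-- few sites are not sparse on the right -/
lemma count_right {R : ℕ} {m n j : ℤ} {S : Set ℤ} (hR : 10000 ≤ R) (hmn : m ≤ n)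
    (obj : (cP : ℤ) * (n - m + 1) ≤ R) (j1 : j - n ≤ R) (j2 : (R : ℤ) ≤ 2 * (j - n))
    (spR : ∀ y : ℕ, 1 ≤ y → n + y ≤ j → (ms S (n + 1) (n + 1 + y) : ℝ) ≤ Sk.c1 * y)
    (G : Set ℤ) (hG : ∀ r, n < r → r < j →
      (∀ y : ℕ, 1 ≤ y → r + y ≤ j → (ms S (r + 1) (r + 1 + y) : ℝ) < c0 * y) → r ∈ G) :
    200 * ((Icc m (j + 1)).filter fun r => ¬ (r ∈ G ∧ r ≤ j)).card ≤ R := by
  obtain ⟨N, hN⟩ : ∃ N : ℕ, (N : ℤ) = j - n := ⟨(j - n).toNat, by omega⟩
  obtain ⟨S', hS'⟩ : ∃ S' : Set ℤ, ∀ x, x ∈ S' ↔ x ∈ S ∧ n + 1 ≤ x ∧ x < j + 1 :=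
    ⟨{x | x ∈ S ∧ n + 1 ≤ x ∧ x < j + 1}, fun _ => Iff.rfl⟩
  have hsub : ((Icc m (j + 1)).filter fun r => ¬ (r ∈ G ∧ r ≤ j)) ⊆
      (Icc m n ∪ {j, j + 1}) ∪ ((Ico (n + 1) j).filter fun r => r ∈ dr c0 N S') := by
    intro r hr
    rw [mem_filter, mem_Icc] at hr
    simp only [mem_union, mem_Icc, mem_insert, mem_singleton, mem_filter, mem_Ico]
    by_cases h1 : r ≤ n
    · left; left; exact ⟨hr.1.1, h1⟩
    by_cases h2 : j ≤ r
    · left; right; omega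
    right
    refine ⟨⟨by omega, by omega⟩, ?_⟩
    by_contra h3
    refine hr.2 ⟨hG r (by omega) (by omega) fun y hy1 hy2 => ?_, by omega⟩
    by_contra h4
    push Not at h4
    refine h3 ⟨y, hy1, by omega, h4.trans ?_⟩
    have : ms S (r + 1) (r + 1 + y) ≤ ms S' (r + 1) (r + 1 + y) :=
      ms_le_of fun i hi1 hi2 hi => (hS' i).2 ⟨hi, by omega, by omega⟩
    exact_mod_cast this
  have hc := (card_le_card hsub).trans (card_union_le _ _)
  have hc2 : (Icc m n ∪ {j, j + 1} : Finset ℤ).card ≤ (Icc m n).card + 2 :=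
    (card_union_le _ _).trans (by
      have : ({j, j + 1} : Finset ℤ).card ≤ 2 := card_le_two
      omega)
  have hc3 : ((Icc m n).card : ℤ) = n - m + 1 := by
    rw [Int.card_Icc]; omega
  have hcnt := count_dr (θ := c0) (by norm_num) N S' j (N - 1)
  have e1 : j - ((N - 1 : ℕ) : ℤ) = n + 1 := by omega
  rw [e1] at hcnt
  have hb : ms S' (n + 1 + 1) (j + N) ≤ ms S (n + 1) (n + 1 + N) := by
    unfold ms
    refine card_le_card fun i hi => ?_
    rw [mem_filter, mem_Ico] at hi ⊢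
    obtain ⟨h1, h2, h3⟩ := (hS' i).1 hi.2
    exact ⟨⟨h2, by omega⟩, h1⟩
  have hb2 := spR N (by omega) (by omega)
  have hb' : (ms S' (n + 1 + 1) (j + N) : ℝ) ≤ ms S (n + 1) (n + 1 + N) := by exact_mod_cast hb
  have hfin : (ms (dr c0 N S') (n + 1) j : ℝ) * 2500000 ≤ N := by
    have h5 := hcnt.trans (hb'.trans hb2)
    have h8 : (0 : ℝ) ≤ N := by positivity
    generalize ms (dr c0 N S') (n + 1) j = q at h5 ⊢
    have h6 : (c0 : ℝ) = 1 / 10 ^ 9 := rfl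
    have h7 : (Sk.c1 : ℝ) = 4 * (1 / 10 ^ 16) := rfl
    rw [h6, h7] at h5
    linarith
  have hfin' : ms (dr c0 N S') (n + 1) j * 2500000 ≤ N := by exact_mod_cast hfin
  have e2 : ((Ico (n + 1) j).filter fun r => r ∈ dr c0 N S').card = ms (dr c0 N S') (n + 1) j := by
    unfold ms; congr
  rw [e2] at hc
  have hcP : ((cP : ℕ) : ℤ) = 1000000 := rfl
  rw [hcP] at obj
  omega

open Classical in
/-- few sites are not sparse on the left -/
lemma count_left {R : ℕ} {m i : ℤ} {S : Set ℤ} (hR : 10000 ≤ R)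
    (i1 : m - i ≤ R) (i2 : (R : ℤ) ≤ 2 * (m - i))
    (spL : ∀ y : ℕ, 1 ≤ y → i ≤ m - y → (ms S (m - y) m : ℝ) ≤ Sk.c1 * y)
    (G : Set ℤ) (hG : ∀ p, i < p → p < m →
      (∀ y : ℕ, 1 ≤ y → i ≤ p - y → (ms S (p - y) p : ℝ) < c0 * y) → p ∈ G) :
    200 * ((Icc (i - 1) (m - 2)).filter fun r => ¬ (r ∈ G ∧ i ≤ r)).card ≤ R := by
  obtain ⟨N, hN⟩ : ∃ N : ℕ, (N : ℤ) = m - i := ⟨(m - i).toNat, by omega⟩
  obtain ⟨S', hS'⟩ : ∃ S' : Set ℤ, ∀ x, x ∈ S' ↔ x ∈ S ∧ i ≤ x ∧ x < m :=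
    ⟨{x | x ∈ S ∧ i ≤ x ∧ x < m}, fun _ => Iff.rfl⟩
  have hsub : ((Icc (i - 1) (m - 2)).filter fun r => ¬ (r ∈ G ∧ i ≤ r)) ⊆
      {i - 1, i} ∪ ((Ico (i + 1) m).filter fun r => r ∈ dl c0 N S') := by
    intro r hr
    rw [mem_filter, mem_Icc] at hr
    simp only [mem_union, mem_insert, mem_singleton, mem_filter, mem_Ico]
    by_cases h1 : r ≤ i
    · left; omega
    right
    refine ⟨⟨by omega, by omega⟩, ?_⟩
    by_contra h3
    refine hr.2 ⟨hG r (by omega) (by omega) fun y hy1 hy2 => ?_, by omega⟩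
    by_contra h4
    push Not at h4
    refine h3 ⟨y, hy1, by omega, h4.trans ?_⟩
    have : ms S (r - y) r ≤ ms S' (r - y) r :=
      ms_le_of fun i hi1 hi2 hi => (hS' i).2 ⟨hi, by omega, by omega⟩
    exact_mod_cast this
  have hc := (card_le_card hsub).trans (card_union_le _ _)
  have hc2 : ({i - 1, i} : Finset ℤ).card ≤ 2 := card_le_two
  have hcnt := count_dl (θ := c0) (by norm_num) N S' i (N - 1)
  have e1 : i + 1 + ((N - 1 : ℕ) : ℤ) = m := by omega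
  rw [e1] at hcnt
  have hb : ms S' (i - N) (i + ((N - 1 : ℕ) : ℤ)) ≤ ms S (m - N) m := by
    unfold ms
    refine card_le_card fun x hx => ?_
    rw [mem_filter, mem_Ico] at hx ⊢
    obtain ⟨h1, h2, h3⟩ := (hS' x).1 hx.2
    exact ⟨⟨by omega, h3⟩, h1⟩
  have hb2 := spL N (by omega) (by omega)
  have hb' : (ms S' (i - N) (i + ((N - 1 : ℕ) : ℤ)) : ℝ) ≤ ms S (m - N) m := by exact_mod_cast hb
  have hfin : (ms (dl c0 N S') (i + 1) m : ℝ) * 2500000 ≤ N := by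
    have h5 := hcnt.trans (hb'.trans hb2)
    have h8 : (0 : ℝ) ≤ N := by positivity
    generalize ms (dl c0 N S') (i + 1) m = q at h5 ⊢
    have h6 : (c0 : ℝ) = 1 / 10 ^ 9 := rfl
    have h7 : (Sk.c1 : ℝ) = 4 * (1 / 10 ^ 16) := rfl
    rw [h6, h7] at h5
    linarith
  have hfin' : ms (dl c0 N S') (i + 1) m * 2500000 ≤ N := by exact_mod_cast hfin
  have e2 : ((Ico (i + 1) m).filter fun r => r ∈ dl c0 N S').card = ms (dl c0 N S') (i + 1) m := by
    unfold ms; congr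
  rw [e2] at hc
  omega

/-- **[PEAKLINE]** from the zone lemma. -/
theorem peakLine_of_zone
    (h : ∃ c₁ : ℝ, 0 < c₁ ∧ ∀ᶠ k in atTop, ZoneAt k c₁ cb cβ) : Sk.PeakLine := by
  obtain ⟨c₁, hc₁, hz⟩ := h
  have t1 : ∀ᶠ k : ℝ in atTop, 8 ≤ k ^ (1 / 10 : ℝ) :=
    (tendsto_rpow_atTop (by norm_num)).eventually_ge_atTop 8
  have t2 : ∀ᶠ k : ℝ in atTop, (10000 : ℝ) ≤ k ^ (49 / 50 : ℝ) :=
    (tendsto_rpow_atTop (by norm_num)).eventually_ge_atTop _
  have t3 : ∀ᶠ k : ℝ in atTop, 1 ≤ Real.log k :=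
    Real.tendsto_log_atTop.eventually_ge_atTop _
  obtain ⟨k0, hk0⟩ := eventually_atTop.1 ((((hz.and (eventually_num (b := cb) hc₁ (by norm_num)
    (by norm_num))).and t1).and t2).and t3)
  refine ⟨c₁, k0, hc₁, fun k hk s hs R m n i j S c hR hc => ?_⟩
  obtain ⟨⟨⟨⟨hz, hn⟩, ht1⟩, ht2⟩, ht3⟩ := hk0 k hk
  have kpos := hn.k0
  have hk1 : 1 ≤ k := by linarith [hn.k2]
  have hs0 : 10000 ≤ Sk.s0 k := by
    have h1 : (10000 : ℝ) ≤ k ^ (1 - cb) * Real.log k ^ 2 := by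
      have e : (1 : ℝ) - cb = 49 / 50 := by norm_num
      rw [e]
      nlinarith
    have h2 : k ^ (1 - cb) * Real.log k ^ 2 ≤ (Sk.s0 k : ℝ) := Nat.le_ceil _
    have h3 := h1.trans h2
    exact_mod_cast h3
  set T : Set ℝ := {t | t ∈ Set.Ico (0 : ℝ) 1 ∧
    PeakPat k s (ao k (Area.pt k m (c, t))) R m n i j S} with hT
  rcases T.eq_empty_or_nonempty with hE | ⟨t0, ht0⟩
  · rw [hE, measure_empty]; exact bot_le
  have P0 := ht0.2
  have hRR : 10000 ≤ R := hs0.trans hR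
  have hRr : (10000 : ℝ) ≤ R := by exact_mod_cast hRR
  have hcP : ((cP : ℕ) : ℤ) = 1000000 := rfl
  have hobj := P0.obj
  rw [hcP] at hobj
  have hmn := P0.hmn
  have hi1 := P0.i1
  have hi2 := P0.i2
  have hj1 := P0.j1
  have hj2 := P0.j2
  refine slice hn hc₁ hz ht1 (m := m) (i' := i) (j' := j) hRR
    (G := {r | n < r ∧ r < j ∧
      ∀ y : ℕ, 1 ≤ y → r + y ≤ j → (ms (↑S) (r + 1) (r + 1 + y) : ℝ) < c0 * y})
    (G' := {p | i < p ∧ p < m ∧
      ∀ y : ℕ, 1 ≤ y → i ≤ p - y → (ms (↑S) (p - y) p : ℝ) < c0 * y})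
    (by omega) (by omega) (by omega) (by omega)
    (by
      convert count_right hRR P0.hmn P0.obj P0.j1 P0.j2 P0.spR _ (fun r h1 h2 h3 => ?_) using 1
      exact ⟨h1, h2, h3⟩)
    (by
      convert count_left hRR P0.i1 P0.i2 P0.spL _ (fun r h1 h2 h3 => ?_) using 1
      exact ⟨h1, h2, h3⟩) c (fun t ht => ht.1) ?_
  intro t ht
  have P := ht.2
  set a := ao k (Area.pt k m (c, t)) with ha
  have hs1 : 1 ≤ 1 + s := by linarith [hs.1]
  have hmono : ∀ x : ℝ, 0 ≤ x → k ^ ((1 - 1 / 1000) * x) ≤ (1 + s) * k ^ ((1 - cd) * x) := by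
    intro x hx
    have h1 : k ^ ((1 - 1 / 1000) * x) ≤ k ^ ((1 - cd) * x) := by
      refine Real.rpow_le_rpow_of_exponent_le hk1 ?_
      have : (1 - 1 / 1000 : ℝ) ≤ 1 - cd := by norm_num
      exact mul_le_mul_of_nonneg_right this hx
    have h2 : 0 ≤ k ^ ((1 - cd) * x) := by positivity
    exact h1.trans (le_mul_of_one_le_left h2 hs1)
  have hcone : ∀ X Y : ℝ, 0 ≤ X → (1 + s) * (k ^ (cβ / 2) * X) ≤ Y → X ≤ k ^ (-cβ / 2) * Y := by
    intro X Y hX h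
    have h1 : k ^ (cβ / 2) * X ≤ Y := by
      have h0 : 0 ≤ k ^ (cβ / 2) * X := by positivity
      exact (le_mul_of_one_le_left h0 hs1).trans h
    have h2 : k ^ (-cβ / 2) * (k ^ (cβ / 2) * X) ≤ k ^ (-cβ / 2) * Y :=
      mul_le_mul_of_nonneg_left h1 (by positivity)
    rw [← mul_assoc, ← Real.rpow_add kpos] at h2
    have e : -cβ / 2 + cβ / 2 = (0 : ℝ) := by ring
    rwa [e, Real.rpow_zero, one_mul] at h2
  refine ⟨?_, ?_, ?_, ?_, ?_⟩
  · have h1 := P.grR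
    unfold Low at h1
    simp only [Dec.num, Dec.den, not_lt] at h1
    refine (hmono _ ?_).trans h1
    have : 0 ≤ j + 1 - m := by omega
    exact_mod_cast this
  · have h1 := P.grL
    unfold Low at h1
    simp only [Dec.num, Dec.den, not_lt] at h1
    have e : m - 2 + 1 - i = m - 1 - i := by ring
    rw [e] at h1
    refine (hmono _ ?_).trans h1
    have : 0 ≤ m - 1 - i := by omega
    exact_mod_cast this
  · intro r hr
    have h1 := P.coneR r hr.1 hr.2.1 hr.2.2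
    unfold Low at h1
    simp only [Dec.num, Dec.den, not_lt] at h1
    have e : r + 1 + 1 = r + 2 := by ring
    rw [e] at h1
    exact hcone _ _ (abs_nonneg _) h1
  · intro p hp
    have h1 := P.coneL p hp.1 hp.2.1 hp.2.2
    unfold Low at h1
    simp only [Dec.num, Dec.den, not_lt] at h1
    have e : p - 1 - 1 = p - 2 := by ring
    rw [e] at h1
    exact hcone _ _ (abs_nonneg _) h1
  · have h1 := P.deep
    unfold Low at h1
    simp only [Dec.num, Dec.den] at h1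
    refine h1.le.trans ?_
    rw [← mul_assoc]
    refine mul_le_mul_of_nonneg_right ?_ (by positivity)
    have h2 : (1 : ℝ) + s ≤ k ^ (1 / 100 * (R : ℝ)) := by
      have h3 : k ^ (1 : ℝ) ≤ k ^ (1 / 100 * (R : ℝ)) :=
        Real.rpow_le_rpow_of_exponent_le hk1 (by linarith)
      rw [Real.rpow_one] at h3
      linarith [hs.2, hn.k2]
    calc (1 + s) * k ^ (-(ca * (R : ℝ))) ≤ k ^ (1 / 100 * (R : ℝ)) * k ^ (-(ca * (R : ℝ))) :=
          mul_le_mul_of_nonneg_right h2 (by positivity)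
      _ = k ^ (-(59 / 100) * (R : ℝ)) := by
          rw [← Real.rpow_add kpos]
          congr 1
          have : (ca : ℝ) = 3 / 5 := rfl
          rw [this]; ring

end Vale.Agent.P108.H442
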