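import Mathlib.Analysis.Real.Sqrt
import Mathlib.Data.Finset.Card
import Mathlib.Data.Finset.Sort
import Mathlib.Order.Interval.Finset.Nat
import Mathlib.Tactic

/-!
# P108 [MATCH]: levels of two digit sequences and their matching

`P r` = rate of the `r`-th digit, `env E P r = max_{l ≤ r} |P l| E^(r-l)`; a level (Pliss time) is an
index where the maximum is attained at `l = r`.
-/

namespace Vale.Agent.P108.H442

open Finset

/-- running envelope -/
noncomputable def env (E : ℝ) (P : ℕ → ℝ) : ℕ → ℝ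
  | 0 => 0
  | (r + 1) => max (E * env E P r) |P (r + 1)|

/-- Rates of a digit sequence: `P 0 = 0`, `P 1 = 1` and the norm grows at most by `B` per step. -/
structure Rates (E B : ℝ) (P : ℕ → ℝ) : Prop where
  hE : 1 < E
  hEB : E ≤ B
  zero : P 0 = 0
  one : |P 1| = 1
  step : ∀ r, |P (r + 2)| ≤ (B - 1) * |P (r + 1)| + |P r|

/-- A level. -/
def IsLevel (E : ℝ) (P : ℕ → ℝ) (r : ℕ) : Prop := 1 ≤ r ∧ env E P r = |P r|

variable {E B : ℝ} {P P' : ℕ → ℝ}

lemma env_nonneg (P : ℕ → ℝ) : ∀ r, 0 ≤ env E P r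
  | 0 => le_rfl
  | (_ + 1) => le_max_of_le_right (abs_nonneg _)

lemma abs_le_env (h : P 0 = 0) : ∀ r, |P r| ≤ env E P r
  | 0 => by simp [h, env]
  | (r + 1) => le_max_right _ _

lemma env_succ_ge (s : ℕ) : E * env E P s ≤ env E P (s + 1) := le_max_left _ _

lemma env_one (h : |P 1| = 1) : env E P 1 = 1 := by
  simp [env, h]

lemma Rates.env_pos (h : Rates E B P) {r : ℕ} (hr : 1 ≤ r) : 0 < env E P r := by
  induction r, hr using Nat.le_induction with
  | base => rw [env_one h.one]; norm_num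
  | succ r hr ih => exact lt_of_lt_of_le (mul_pos (by linarith [h.hE]) ih) (env_succ_ge r)

lemma Rates.env_mono (h : Rates E B P) (r : ℕ) : env E P r ≤ env E P (r + 1) := by
  have h1 := env_nonneg (E := E) P r
  have h2 : env E P r ≤ E * env E P r := by nlinarith [h.hE]
  exact h2.trans (env_succ_ge r)

lemma Rates.env_succ_le (h : Rates E B P) {r : ℕ} (hr : 1 ≤ r) :
    env E P (r + 1) ≤ B * env E P r := by
  obtain ⟨s, rfl⟩ : ∃ s, r = s + 1 := ⟨r - 1, by omega⟩
  refine max_le (mul_le_mul_of_nonneg_right h.hEB (h.env_pos hr).le) ?_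
  have h1 := h.step s
  have h2 := abs_le_env (E := E) h.zero (s + 1)
  have h3 := abs_le_env (E := E) h.zero s
  have h4 := h.env_mono s
  have h5 : 0 ≤ B - 1 := by linarith [h.hE, h.hEB]
  nlinarith

lemma Rates.env_pow_le (h : Rates E B P) {r s : ℕ} (hrs : r ≤ s) :
    E ^ (s - r) * env E P r ≤ env E P s := by
  induction s, hrs using Nat.le_induction with
  | base => simp
  | succ s hs ih =>
    rw [Nat.succ_sub hs, pow_succ, mul_comm (E ^ (s - r)) E, mul_assoc]
    exact (mul_le_mul_of_nonneg_left ih (by linarith [h.hE])).trans (env_succ_ge s)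

lemma Rates.env_le_pow (h : Rates E B P) {r s : ℕ} (hr : 1 ≤ r) (hrs : r ≤ s) :
    env E P s ≤ B ^ (s - r) * env E P r := by
  induction s, hrs using Nat.le_induction with
  | base => simp
  | succ s hs ih =>
    rw [Nat.succ_sub hs, pow_succ, mul_comm (B ^ (s - r)) B, mul_assoc]
    exact (h.env_succ_le (hr.trans hs)).trans
      (mul_le_mul_of_nonneg_left ih (by linarith [h.hE, h.hEB]))

/-- suffix growth at a level -/
lemma Rates.level_growth (h : Rates E B P) {l r : ℕ} (hr : IsLevel E P r) (hl : l ≤ r) :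
    |P l| * E ^ (r - l) ≤ |P r| := by
  rw [← hr.2, mul_comm]
  have h1 := abs_le_env (E := E) h.zero l
  exact (mul_le_mul_of_nonneg_left h1 (pow_nonneg (by linarith [h.hE]) _)).trans
    (h.env_pow_le hl)

lemma Rates.level_pos (h : Rates E B P) {r : ℕ} (hr : IsLevel E P r) : 0 < |P r| := by
  rw [← hr.2]; exact h.env_pos hr.1

lemma Rates.level_ge (h : Rates E B P) {r : ℕ} (hr : IsLevel E P r) : E ^ (r - 1) ≤ |P r| := by
  have := h.level_growth hr hr.1
  rwa [h.one, one_mul] at this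

open Classical in
/-- non-levels in `[2, L]` -/
noncomputable def nonLev (E : ℝ) (P : ℕ → ℝ) (L : ℕ) : Finset ℕ :=
  (Ioc 1 L).filter fun r => ¬ IsLevel E P r

/-- **Pliss count.** -/
theorem Rates.pliss (h : Rates E B P) {L : ℕ} (hL : 1 ≤ L) :
    env E P L ≤ E ^ (nonLev E P L).card * B ^ (L - 1 - (nonLev E P L).card) := by
  classical
  have hE := h.hE
  have hB := h.hEB
  induction L, hL using Nat.le_induction with
  | base => simp [nonLev, env_one h.one]
  | succ L hL ih =>
    have hcard : (nonLev E P L).card ≤ L - 1 := by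
      refine (card_filter_le _ _).trans ?_
      simp
    by_cases hlev : IsLevel E P (L + 1)
    · have e : nonLev E P (L + 1) = nonLev E P L := by
        unfold nonLev
        ext r
        simp only [mem_filter, mem_Ioc]
        constructor
        · rintro ⟨⟨h1, h2⟩, h3⟩
          have : r ≠ L + 1 := by rintro rfl; exact h3 hlev
          exact ⟨⟨h1, by omega⟩, h3⟩
        · rintro ⟨⟨h1, h2⟩, h3⟩
          exact ⟨⟨h1, by omega⟩, h3⟩
      rw [e]
      have e2 : L + 1 - 1 - (nonLev E P L).card = (L - 1 - (nonLev E P L).card) + 1 := by omega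
      rw [e2, pow_succ]
      have h1 := h.env_succ_le hL
      have h2 := mul_le_mul_of_nonneg_left ih (by linarith : 0 ≤ B)
      calc env E P (L + 1) ≤ B * env E P L := h1
        _ ≤ _ := h2
        _ = _ := by ring
    · have e : nonLev E P (L + 1) = insert (L + 1) (nonLev E P L) := by
        unfold nonLev
        ext r
        simp only [mem_filter, mem_Ioc, mem_insert]
        constructor
        · rintro ⟨⟨h1, h2⟩, h3⟩
          rcases Nat.lt_or_ge L r with h4 | h4
          · left; omega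
          · right; exact ⟨⟨h1, h4⟩, h3⟩
        · rintro (rfl | ⟨⟨h1, h2⟩, h3⟩)
          · exact ⟨⟨by omega, le_rfl⟩, hlev⟩
          · exact ⟨⟨h1, by omega⟩, h3⟩
      have hn : L + 1 ∉ nonLev E P L := by
        unfold nonLev; simp
      rw [e, card_insert_of_notMem hn]
      have hne : env E P (L + 1) ≠ |P (L + 1)| := fun h0 => hlev ⟨by omega, h0⟩
      have h1 : env E P (L + 1) = E * env E P L := by
        rcases max_choice (E * env E P L) |P (L + 1)| with h2 | h2
        · exact h2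
        · exact absurd h2 hne
      have e2 : L + 1 - 1 - ((nonLev E P L).card + 1) = L - 1 - (nonLev E P L).card := by omega
      rw [h1, e2, pow_succ]
      have h2 := mul_le_mul_of_nonneg_left ih (by linarith : 0 ≤ E)
      calc E * env E P L ≤ _ := h2
        _ = _ := by ring

/-- existence of a partner -/
lemma Rates.exists_partner (h' : Rates E B P') {L : ℕ} (hL : 1 ≤ L) {x : ℝ} (hx1 : 1 ≤ x)
    (hx2 : x ≤ env E P' L) :
    ∃ p, 1 ≤ p ∧ p ≤ L ∧ x ≤ Real.sqrt B * env E P' p ∧ env E P' p ≤ Real.sqrt B * x := by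
  classical
  have hE := h'.hE
  have hB := h'.hEB
  have hB1 : 1 ≤ Real.sqrt B := by
    rw [Real.one_le_sqrt]; linarith
  have hsq : Real.sqrt B * Real.sqrt B = B := Real.mul_self_sqrt (by linarith)
  -- the largest `p ≤ L` with `env p ≤ x`
  set Sx := (Icc 1 L).filter fun p => env E P' p ≤ x with hSx
  have hne : Sx.Nonempty := ⟨1, by simp [hSx, hL, env_one h'.one, hx1]⟩
  set p := Sx.max' hne with hp
  have hpm : p ∈ Sx := Sx.max'_mem hne
  rw [hSx, mem_filter, mem_Icc] at hpm
  obtain ⟨⟨hp1, hp2⟩, hp3⟩ := hpm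
  have hpos := h'.env_pos hp1
  rcases eq_or_lt_of_le hp2 with hpL | hpL
  · refine ⟨p, hp1, hp2, ?_, ?_⟩
    · rw [← hpL] at hx2; nlinarith
    · nlinarith
  · have hx3 : x < env E P' (p + 1) := by
      by_contra hcon
      have : p + 1 ∈ Sx := by
        rw [hSx, mem_filter, mem_Icc]
        exact ⟨⟨by omega, by omega⟩, not_lt.1 hcon⟩
      have := Sx.le_max' _ this
      omega
    by_cases hc : x ≤ Real.sqrt B * env E P' p
    · exact ⟨p, hp1, hp2, hc, by nlinarith⟩
    · refine ⟨p + 1, by omega, by omega, by nlinarith, ?_⟩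
      have h1 := h'.env_succ_le hp1
      have h2 := not_le.1 hc
      calc env E P' (p + 1) ≤ B * env E P' p := h1
        _ = Real.sqrt B * (Real.sqrt B * env E P' p) := by rw [← mul_assoc, hsq]
        _ ≤ Real.sqrt B * x := mul_le_mul_of_nonneg_left h2.le (by linarith)

/-- at most two levels have the same partner -/
lemma Rates.fiber (h : Rates E B P) (hEB2 : B < E ^ 2) {y : ℝ} {r1 r3 : ℕ}
    (h1 : y ≤ Real.sqrt B * env E P r1) (h3 : env E P r3 ≤ Real.sqrt B * y)
    (hr1 : 1 ≤ r1) (hr : r1 + 2 ≤ r3) : False := by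
  have hE := h.hE
  have hB := h.hEB
  have hsq : Real.sqrt B * Real.sqrt B = B := Real.mul_self_sqrt (by linarith)
  have h0 := h.env_pow_le (show r1 + 2 ≤ r3 from hr)
  have h4 := h.env_pow_le (show r1 ≤ r1 + 2 by omega)
  have e : r1 + 2 - r1 = 2 := by omega
  rw [e] at h4
  have hpos := h.env_pos hr1
  have h5 : (1 : ℝ) ≤ E ^ (r3 - (r1 + 2)) := one_le_pow₀ hE.le
  have h6 : E ^ 2 * env E P r1 ≤ env E P r3 := by
    refine h4.trans (le_trans ?_ h0)
    have := h.env_pos (show 1 ≤ r1 + 2 by omega)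
    nlinarith
  have h7 : env E P r3 ≤ B * env E P r1 := by
    calc env E P r3 ≤ Real.sqrt B * y := h3
      _ ≤ Real.sqrt B * (Real.sqrt B * env E P r1) :=
        mul_le_mul_of_nonneg_left h1 (Real.sqrt_nonneg _)
      _ = B * env E P r1 := by rw [← mul_assoc, hsq]
  nlinarith

/-- A matched pair of levels `(r, p)`: both good, rates comparable up to `√B`. -/
def Matched (E B : ℝ) (P P' : ℕ → ℝ) (G G' : Set ℕ) (r p : ℕ) : Prop :=
  IsLevel E P r ∧ r ∈ G ∧ IsLevel E P' p ∧ p ∈ G' ∧
    |P r| ≤ Real.sqrt B * |P' p| ∧ |P' p| ≤ Real.sqrt B * |P r|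

open Classical in
/-- **MATCH.** -/
theorem matching (h : Rates E B P) (h' : Rates E B P') (hEB2 : B < E ^ 2) (G G' : Set ℕ)
    {L1 L : ℕ} (hL : 1 ≤ L) (hL1 : B ^ (L1 - 1) ≤ env E P' L) {N : ℕ}
    (hcount : 3 * N + 3 + ((Ioc 1 L1).filter fun r => ¬ (IsLevel E P r ∧ r ∈ G)).card +
      2 * ((Icc 1 L).filter fun p => ¬ (IsLevel E P' p ∧ p ∈ G')).card ≤ L1) :
    ∃ f g : ℕ → ℕ, (∀ i < N, 3 ≤ f i ∧ f i ≤ L1 ∧ Matched E B P P' G G' (f i) (g i)) ∧
      ∀ i, i + 1 < N → f i + 3 ≤ f (i + 1) := by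
  have hE := h.hE
  have hB := h.hEB
  -- partner function
  have hpart : ∀ r, ∃ p, (r ∈ Icc 1 L1 → 1 ≤ p ∧ p ≤ L ∧
      env E P r ≤ Real.sqrt B * env E P' p ∧ env E P' p ≤ Real.sqrt B * env E P r) := by
    intro r
    by_cases hr : r ∈ Icc 1 L1
    · have hr' := mem_Icc.1 hr
      have h1 : 1 ≤ env E P r := by
        have := h.env_pow_le hr'.1
        rw [env_one h.one, mul_one] at this
        exact (one_le_pow₀ hE.le).trans this
      have h2 : env E P r ≤ env E P' L := by
        have h3 := h.env_le_pow le_rfl hr'.1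
        rw [env_one h.one, mul_one] at h3
        refine h3.trans (le_trans ?_ hL1)
        exact pow_le_pow_right₀ (by linarith) (by omega)
      obtain ⟨p, hp⟩ := h'.exists_partner hL h1 h2
      exact ⟨p, fun _ => hp⟩
    · exact ⟨0, fun hc => absurd hc hr⟩
  choose π hπ using hpart
  set badR := (Ioc 1 L1).filter fun r => ¬ (IsLevel E P r ∧ r ∈ G) with hbadR
  set badL := (Icc 1 L).filter fun p => ¬ (IsLevel E P' p ∧ p ∈ G') with hbadL
  -- the good set
  set A := (Icc 3 L1).filter fun r => (IsLevel E P r ∧ r ∈ G) ∧ (IsLevel E P' (π r) ∧ π r ∈ G')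
    with hA
  -- levels with bad partner
  set W := (Icc 3 L1).filter fun r => ¬ (IsLevel E P' (π r) ∧ π r ∈ G') with hW
  have hWcard : W.card ≤ 2 * badL.card := by
    have hmap : ∀ r ∈ W, π r ∈ badL := by
      intro r hr
      rw [hW, mem_filter, mem_Icc] at hr
      have := hπ r (mem_Icc.2 ⟨by omega, hr.1.2⟩)
      rw [hbadL, mem_filter, mem_Icc]
      exact ⟨⟨this.1, this.2.1⟩, hr.2⟩
    have hfib : ∀ p ∈ badL, (W.filter fun r => π r = p).card ≤ 2 := by
      intro p _
      by_contra hcon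
      have h3 : 2 < (W.filter fun r => π r = p).card := not_le.1 hcon
      set F := W.filter fun r => π r = p with hF
      have hne : F.Nonempty := card_pos.1 (by omega)
      have hmin := F.min'_mem hne
      have hmax := F.max'_mem hne
      have hlen : F.min' hne + 2 ≤ F.max' hne := by
        have hsub : F ⊆ Icc (F.min' hne) (F.max' hne) := fun x hx =>
          mem_Icc.2 ⟨F.min'_le x hx, F.le_max' x hx⟩
        have := card_le_card hsub
        rw [Nat.card_Icc] at this
        omega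
      have hF' : ∀ x ∈ F, (3 ≤ x ∧ x ≤ L1) ∧ π x = p := by
        intro x hx
        rw [hF, mem_filter, hW, mem_filter, mem_Icc] at hx
        exact ⟨hx.1.1, hx.2⟩
      have hmin := hF' _ hmin
      have hmax := hF' _ hmax
      have q1 := hπ _ (mem_Icc.2 ⟨by omega, hmin.1.2⟩ : F.min' hne ∈ Icc 1 L1)
      have q3 := hπ _ (mem_Icc.2 ⟨by omega, hmax.1.2⟩ : F.max' hne ∈ Icc 1 L1)
      rw [hmin.2] at q1
      rw [hmax.2] at q3
      exact h.fiber hEB2 q1.2.2.2 q3.2.2.1 (by omega) hlen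
    have := card_le_mul_card_image_of_maps_to hmap 2 hfib
    exact this
  have hsub : Icc 3 L1 ⊆ A ∪ (badR ∪ W) := by
    intro r hr
    have hr' := mem_Icc.1 hr
    simp only [mem_union, hA, hbadR, hW, mem_filter, hr, true_and, mem_Ioc]
    by_cases h1 : IsLevel E P r ∧ r ∈ G
    · by_cases h2 : IsLevel E P' (π r) ∧ π r ∈ G'
      · exact Or.inl ⟨h1, h2⟩
      · exact Or.inr (Or.inr h2)
    · exact Or.inr (Or.inl ⟨⟨by omega, hr'.2⟩, h1⟩)
  have hAcard : 3 * N ≤ A.card := by
    have h1 := card_le_card hsub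
    have h2 := card_union_le A (badR ∪ W)
    have h3 := card_union_le badR W
    rw [Nat.card_Icc] at h1
    omega
  set e := A.orderEmbOfFin rfl with he
  refine ⟨fun i => if hi : 3 * i < A.card then e ⟨3 * i, hi⟩ else 0,
    fun i => if hi : 3 * i < A.card then π (e ⟨3 * i, hi⟩) else 0, fun i hi => ?_, fun i hi => ?_⟩
  · have hlt : 3 * i < A.card := by omega
    simp only [dif_pos hlt]
    have hmem : e ⟨3 * i, hlt⟩ ∈ A := A.orderEmbOfFin_mem rfl _
    set r := e ⟨3 * i, hlt⟩ with hr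
    rw [hA, mem_filter, mem_Icc] at hmem
    obtain ⟨⟨h3, hL1'⟩, ⟨ha, hb⟩, hc, hd⟩ := hmem
    have hq := hπ r (mem_Icc.2 ⟨by omega, hL1'⟩)
    refine ⟨h3, hL1', ha, hb, hc, hd, ?_, ?_⟩
    · rw [← ha.2, ← hc.2]; exact hq.2.2.1
    · rw [← ha.2, ← hc.2]; exact hq.2.2.2
  · have hlt : 3 * i < A.card := by omega
    have hlt2 : 3 * (i + 1) < A.card := by omega
    simp only [dif_pos hlt, dif_pos hlt2]
    have h1 : e ⟨3 * i, hlt⟩ < e ⟨3 * i + 1, by omega⟩ :=
      e.strictMono (by simp [Fin.lt_def])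
    have h2 : e ⟨3 * i + 1, by omega⟩ < e ⟨3 * i + 2, by omega⟩ :=
      e.strictMono (by simp [Fin.lt_def])
    have h3 : e ⟨3 * i + 2, by omega⟩ < e ⟨3 * (i + 1), hlt2⟩ :=
      e.strictMono (by simp [Fin.lt_def]; omega)
    omega

end Vale.Agent.P108.H442
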