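import Vale.Agent.P108.H442.Match
import Vale.Agent.P108.Por.Main

/-!
# P108 [PEAK-ABS]: matched levels with a hole at each matched pair ⇒ small measure
-/

namespace Vale.Agent.P108.H442

open Finset MeasureTheory

open Classical in
/-- **PEAK-ABS, abstract form.**  At each point of `S` both digit sequences have few non-levels and
few indices outside the fixed sets `G`, `G'`; every matched pair of levels produces a hole of relative
size `h` at the scale of the slower digit.  Then `S` is small. -/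
theorem volume_le_of_holes {E B h : ℝ} {g N L L1 : ℕ} {S : Set ℝ} (hS : S ⊆ Set.Ico (0 : ℝ) 1)
    (Pr Pl : ℝ → ℕ → ℝ) (G G' : Set ℕ)
    (hr : ∀ t ∈ S, Rates E B (Pr t)) (hl : ∀ t ∈ S, Rates E B (Pl t))
    (hEB2 : B < E ^ 2) (hstart : 36 * Real.sqrt B ≤ E ^ 2) (hratio : 2 ^ (g + 1) * Real.sqrt B ≤ E ^ 3)
    (h0 : 0 < h) (h1 : h ≤ 1) (hg : 48 ≤ h * 2 ^ g) (hL : 1 ≤ L)
    (hL1 : ∀ t ∈ S, B ^ (L1 - 1) ≤ env E (Pl t) L)
    (hcount : ∀ t ∈ S, 3 * N + 3 +
      ((Ioc 1 L1).filter fun r => ¬ (IsLevel E (Pr t) r ∧ r ∈ G)).card +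
      2 * ((Icc 1 L).filter fun p => ¬ (IsLevel E (Pl t) p ∧ p ∈ G')).card ≤ L1)
    (hZ : ∀ t ∈ S, ∀ r p, 3 ≤ r → r ≤ L1 → Matched E B (Pr t) (Pl t) G G' r p →
      ∃ a b, t - 3 / min |Pr t r| |Pl t p| ≤ a ∧ b ≤ t + 3 / min |Pr t r| |Pl t p| ∧
        h * (3 / min |Pr t r| |Pl t p|) ≤ b - a ∧ Disjoint (Set.Ioo a b) S) :
    volume S ≤ ENNReal.ofReal (3 * (1 - h / 24) ^ (N / 2)) := by
  refine Por.porosity hS h0 h1 hg N fun t ht => ?_
  have hR := hr t ht
  have hRl := hl t ht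
  have hE := hR.hE
  have hB := hR.hEB
  have hsB : 1 ≤ Real.sqrt B := by rw [Real.one_le_sqrt]; linarith
  obtain ⟨f, q, hf, hf3⟩ := matching hR hRl hEB2 G G' hL (hL1 t ht) (hcount t ht)
  -- the reference rates
  set w : ℕ → ℝ := fun i => min |Pr t (f i)| |Pl t (q i)| with hw
  have hwle : ∀ i, w i ≤ |Pr t (f i)| := fun i => min_le_left _ _
  have hwge : ∀ i < N, |Pr t (f i)| ≤ Real.sqrt B * w i := by
    intro i hi
    obtain ⟨_, _, hm⟩ := hf i hi
    obtain ⟨_, _, _, _, h5, h6⟩ := hm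
    rcases min_choice |Pr t (f i)| |Pl t (q i)| with h7 | h7
    · simp only [hw]; rw [h7]
      nlinarith [abs_nonneg (Pr t (f i))]
    · simp only [hw]; rw [h7]; exact h5
  have hwpos : ∀ i < N, 0 < w i := by
    intro i hi
    obtain ⟨_, _, hm⟩ := hf i hi
    exact lt_min (hR.level_pos hm.1) (hRl.level_pos hm.2.2.1)
  have hw36 : ∀ i < N, 36 ≤ w i := by
    intro i hi
    obtain ⟨h3, _, hm⟩ := hf i hi
    have e1 := hR.level_ge hm.1
    have e2 : E ^ 2 ≤ E ^ (f i - 1) := pow_le_pow_right₀ hE.le (by omega)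
    have e3 := hwge i hi
    have e4 : 36 * Real.sqrt B ≤ Real.sqrt B * w i := by linarith
    have : 36 * Real.sqrt B ≤ w i * Real.sqrt B := by rw [mul_comm (w i)]; exact e4
    exact le_of_mul_le_mul_right this (by linarith)
  refine ⟨fun i => 3 / w i, fun i hi => ⟨div_pos (by norm_num) (hwpos i hi), ?_⟩, fun i hi => ?_,
    fun i hi => ?_⟩
  · rw [div_le_iff₀ (hwpos i hi)]
    have := hw36 i hi
    linarith
  · -- ratio of consecutive scales
    have hi' : i < N := by omega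
    have p1 := hwpos i hi'
    have p2 := hwpos (i + 1) hi
    obtain ⟨_, _, hm⟩ := hf i hi'
    obtain ⟨_, _, hm2⟩ := hf (i + 1) hi
    have h3 := hf3 i hi
    have e1 := hR.level_growth hm2.1 (show f i ≤ f (i + 1) by omega)
    have e2 : E ^ 3 ≤ E ^ (f (i + 1) - f i) := pow_le_pow_right₀ hE.le (by omega)
    have e3 : |Pr t (f i)| * E ^ 3 ≤ |Pr t (f (i + 1))| :=
      (mul_le_mul_of_nonneg_left e2 (abs_nonneg _)).trans e1
    have e4 := hwge (i + 1) hi
    have e5 := hwle i
    have e6 : w i * (2 ^ (g + 1) * Real.sqrt B) ≤ Real.sqrt B * w (i + 1) := by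
      calc w i * (2 ^ (g + 1) * Real.sqrt B) ≤ w i * E ^ 3 :=
            mul_le_mul_of_nonneg_left hratio p1.le
        _ ≤ |Pr t (f i)| * E ^ 3 := mul_le_mul_of_nonneg_right e5 (by positivity)
        _ ≤ |Pr t (f (i + 1))| := e3
        _ ≤ _ := e4
    have e7 : w i * 2 ^ (g + 1) ≤ w (i + 1) := by
      have : (w i * 2 ^ (g + 1)) * Real.sqrt B ≤ w (i + 1) * Real.sqrt B := by
        calc (w i * 2 ^ (g + 1)) * Real.sqrt B = w i * (2 ^ (g + 1) * Real.sqrt B) := by ring
          _ ≤ Real.sqrt B * w (i + 1) := e6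
          _ = _ := mul_comm _ _
      exact le_of_mul_le_mul_right this (by linarith)
    rw [div_div, div_le_div_iff_of_pos_left (by norm_num) p2 (by positivity)]
    exact e7
  · obtain ⟨h3, h4, hm⟩ := hf i hi
    exact hZ t ht (f i) (q i) h3 h4 hm

open Classical in
/-- The counting hypothesis from non-levels and complements. -/
lemma count_of_nonLev {E : ℝ} {P P' : ℕ → ℝ} {G G' : Set ℕ} {N L L1 b b' d d' : ℕ}
    (hLL : L1 ≤ L) (hP1 : IsLevel E P' 1) (hb : (nonLev E P L).card ≤ b)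
    (hb' : (nonLev E P' L).card ≤ b')
    (hd : ((Icc 1 L).filter fun r => r ∉ G).card ≤ d) (hd' : ((Icc 1 L).filter fun r => r ∉ G').card ≤ d')
    (h : 3 * N + 3 + (b + d) + 2 * (b' + d') ≤ L1) :
    3 * N + 3 + ((Ioc 1 L1).filter fun r => ¬ (IsLevel E P r ∧ r ∈ G)).card +
      2 * ((Icc 1 L).filter fun p => ¬ (IsLevel E P' p ∧ p ∈ G')).card ≤ L1 := by
  have h1 : ((Ioc 1 L1).filter fun r => ¬ (IsLevel E P r ∧ r ∈ G)).card ≤ b + d := by
    have hsub : ((Ioc 1 L1).filter fun r => ¬ (IsLevel E P r ∧ r ∈ G)) ⊆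
        nonLev E P L ∪ ((Icc 1 L).filter fun r => r ∉ G) := by
      intro r hr
      rw [mem_filter, mem_Ioc] at hr
      rw [mem_union, nonLev, mem_filter, mem_filter, mem_Ioc, mem_Icc]
      by_cases hlev : IsLevel E P r
      · right
        exact ⟨⟨by omega, by omega⟩, fun hG => hr.2 ⟨hlev, hG⟩⟩
      · left
        exact ⟨⟨by omega, by omega⟩, hlev⟩
    have := (card_le_card hsub).trans (card_union_le _ _)
    omega
  have h2 : ((Icc 1 L).filter fun p => ¬ (IsLevel E P' p ∧ p ∈ G')).card ≤ b' + d' := by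
    have hsub : ((Icc 1 L).filter fun p => ¬ (IsLevel E P' p ∧ p ∈ G')) ⊆
        nonLev E P' L ∪ ((Icc 1 L).filter fun r => r ∉ G') := by
      intro r hr
      rw [mem_filter, mem_Icc] at hr
      rw [mem_union, nonLev, mem_filter, mem_filter, mem_Ioc, mem_Icc]
      by_cases hlev : IsLevel E P' r
      · right
        exact ⟨⟨by omega, by omega⟩, fun hG => hr.2 ⟨hlev, hG⟩⟩
      · left
        refine ⟨⟨?_, by omega⟩, hlev⟩
        rcases Nat.lt_or_ge 1 r with h3 | h3
        · exact h3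
        · have : r = 1 := by omega
          subst this
          exact absurd hP1 hlev
    have := (card_le_card hsub).trans (card_union_le _ _)
    omega
  omega

lemma Rates.isLevel_one {E B : ℝ} {P : ℕ → ℝ} (h : Rates E B P) : IsLevel E P 1 :=
  ⟨le_rfl, by rw [env_one h.one, h.one]⟩

/-- Pliss count in logarithmic form: if `|P L| ≥ Q^L` then the number `b` of non-levels satisfies
`b · log (B/E) ≤ L · log (B/Q)`. -/
theorem Rates.nonLev_le {E B Q : ℝ} {P : ℕ → ℝ} (h : Rates E B P) {L : ℕ} (hL : 1 ≤ L) (hQ : 0 < Q)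
    (hP : Q ^ L ≤ |P L|) :
    (nonLev E P L).card * Real.log (B / E) ≤ L * Real.log (B / Q) := by
  classical
  have hE := h.hE
  have hB := h.hEB
  have hE0 : 0 < E := by linarith
  have hB0 : 0 < B := by linarith
  have hcard : (nonLev E P L).card ≤ L - 1 := by
    refine (card_filter_le _ _).trans ?_
    simp
  have h1 := h.pliss hL
  have h2 := abs_le_env (E := E) h.zero L
  set b := (nonLev E P L).card with hb
  have h3 : Q ^ L ≤ E ^ b * B ^ (L - b) := by
    refine hP.trans (h2.trans (h1.trans ?_))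
    refine mul_le_mul_of_nonneg_left ?_ (by positivity)
    exact pow_le_pow_right₀ (by linarith) (by omega)
  have h4 := Real.log_le_log (by positivity) h3
  rw [Real.log_pow, Real.log_mul (by positivity) (by positivity), Real.log_pow, Real.log_pow] at h4
  rw [Real.log_div hB0.ne' hE0.ne', Real.log_div hB0.ne' hQ.ne']
  have e : ((L - b : ℕ) : ℝ) = (L : ℝ) - b := by
    rw [Nat.cast_sub (by omega)]
  rw [e] at h4
  nlinarith

end Vale.Agent.P108.H442
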