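import Vale.Agent.P108.H442.PeakAbs
import Vale.Agent.P108.Area.Coord

/-!
# P108 [PEAK-ABS] along the probing line (frozen site `0`, parameter `t = x_1`)
-/

namespace Vale.Agent.P108.H442

open Finset MeasureTheory Filter
open Vale.Agent.P108 Vale.Agent.P108.Dyn Vale.Agent.P108.H504 Vale.Agent.P108.H786
  Vale.Agent.P108.Area

/-- Rates of the right digits: `d x_r / dt = D_[1,r-1]`. -/
noncomputable def rt (k c t : ℝ) (r : ℕ) : ℝ := D (ao k (pt k 1 (c, t))) 1 ((r : ℤ) - 1)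

/-- Rates of the left digits. -/
noncomputable def lt (k c t : ℝ) (r : ℕ) : ℝ := rt k c (phi k c - t) r

lemma abs_ao_le {k : ℝ} (hk : 0 ≤ k) (z : ℝ × ℝ) (i : ℤ) : |ao k z i| ≤ 2 + 2 * Real.pi * k := by
  unfold ao FT.a
  refine (abs_add_le _ _).trans ?_
  rw [abs_of_pos (by norm_num : (0:ℝ) < 2), abs_mul, abs_of_nonneg (by positivity)]
  have := Real.abs_cos_le_one (2 * Real.pi * orb k z i)
  have h2 : 0 ≤ 2 * Real.pi * k := by positivity
  nlinarith

lemma abs_ao_le' {k : ℝ} (hk : 2 ≤ k) (z : ℝ × ℝ) (i : ℤ) : |ao k z i| ≤ 8 * k - 1 := by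
  have h := abs_ao_le (by linarith : 0 ≤ k) z i
  have h3 := Real.pi_lt_d2
  nlinarith

lemma rates_rt {k E : ℝ} (hk : 2 ≤ k) (hE : 1 < E) (hEB : E ≤ 8 * k) (c t : ℝ) :
    Rates E (8 * k) (rt k c t) where
  hE := hE
  hEB := hEB
  zero := by unfold rt; exact D_of_le _ (by norm_num)
  one := by
    unfold rt
    have : (((1 : ℕ) : ℤ) - 1) = (1 : ℤ) - 1 := by norm_num
    rw [this, D_empty]; norm_num
  step := by
    intro r
    unfold rt
    have h := D_right (ao k (pt k 1 (c, t))) (p := 1) (q := (((r + 2 : ℕ) : ℤ) - 1))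
      (by push_cast; omega)
    have e1 : (((r + 2 : ℕ) : ℤ) - 1 - 1) = (((r + 1 : ℕ) : ℤ) - 1) := by push_cast; ring
    have e2 : (((r + 2 : ℕ) : ℤ) - 1 - 2) = ((r : ℤ) - 1) := by push_cast; ring
    rw [e1, e2] at h
    rw [h]
    refine (abs_sub _ _).trans (add_le_add ?_ le_rfl)
    rw [abs_mul]
    exact mul_le_mul_of_nonneg_right (abs_ao_le' hk _ _) (abs_nonneg _)

lemma rates_lt {k E : ℝ} (hk : 2 ≤ k) (hE : 1 < E) (hEB : E ≤ 8 * k) (c t : ℝ) :
    Rates E (8 * k) (lt k c t) := rates_rt hk hE hEB c _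

open Classical in
/-- The counting hypothesis, two different lengths. -/
lemma count_of_nonLev' {E : ℝ} {P P' : ℕ → ℝ} {G G' : Set ℕ} {N L L' L1 b b' d d' : ℕ}
    (hLL : L1 ≤ L) (hP1 : IsLevel E P' 1) (hb : (nonLev E P L).card ≤ b)
    (hb' : (nonLev E P' L').card ≤ b')
    (hd : ((Icc 1 L).filter fun r => r ∉ G).card ≤ d)
    (hd' : ((Icc 1 L').filter fun r => r ∉ G').card ≤ d')
    (h : 3 * N + 3 + (b + d) + 2 * (b' + d') ≤ L1) :
    3 * N + 3 + ((Ioc 1 L1).filter fun r => ¬ (IsLevel E P r ∧ r ∈ G)).card +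
      2 * ((Icc 1 L').filter fun p => ¬ (IsLevel E P' p ∧ p ∈ G')).card ≤ L1 := by
  have h1 : ((Ioc 1 L1).filter fun r => ¬ (IsLevel E P r ∧ r ∈ G)).card ≤ b + d := by
    have hsub : ((Ioc 1 L1).filter fun r => ¬ (IsLevel E P r ∧ r ∈ G)) ⊆
        nonLev E P L ∪ ((Icc 1 L).filter fun r => r ∉ G) := by
      intro r hr
      rw [mem_filter, mem_Ioc] at hr
      rw [mem_union, nonLev, mem_filter, mem_filter, mem_Ioc, mem_Icc]
      by_cases hlev : IsLevel E P r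
      · right
        exact ⟨⟨by omega, by omega⟩, fun hG => hr.2 ⟨hlev, hG⟩⟩
      · left
        exact ⟨⟨by omega, by omega⟩, hlev⟩
    have := (card_le_card hsub).trans (card_union_le _ _)
    omega
  have h2 : ((Icc 1 L').filter fun p => ¬ (IsLevel E P' p ∧ p ∈ G')).card ≤ b' + d' := by
    have hsub : ((Icc 1 L').filter fun p => ¬ (IsLevel E P' p ∧ p ∈ G')) ⊆
        nonLev E P' L' ∪ ((Icc 1 L').filter fun r => r ∉ G') := by
      intro r hr
      rw [mem_filter, mem_Icc] at hr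
      rw [mem_union, nonLev, mem_filter, mem_filter, mem_Ioc, mem_Icc]
      by_cases hlev : IsLevel E P' r
      · right
        exact ⟨⟨by omega, by omega⟩, fun hG => hr.2 ⟨hlev, hG⟩⟩
      · left
        refine ⟨⟨?_, by omega⟩, hlev⟩
        rcases Nat.lt_or_ge 1 r with h3 | h3
        · exact h3
        · have : r = 1 := by omega
          subst this
          exact absurd hP1 hlev
    have := (card_le_card hsub).trans (card_union_le _ _)
    omega
  omega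

/-- The numerical conditions needed in `peak_line`, all true for large `k`. -/
structure Num (k c1 b : ℝ) : Prop where
  k2 : 2 ≤ k
  k8 : 8 ≤ k ^ (1 / 2 : ℝ)
  hB : 8 * k < (k ^ (9 / 10 : ℝ)) ^ 2
  hs : 36 * Real.sqrt (8 * k) ≤ (k ^ (9 / 10 : ℝ)) ^ 2
  hr : 192 / (c1 * k ^ (b - 1)) * Real.sqrt (8 * k) ≤ (k ^ (9 / 10 : ℝ)) ^ 3
  h1 : c1 * k ^ (b - 1) ≤ 1
  hlog : Real.log 8 + 2 / 1000 * Real.log k ≤ 9 / 400 * (Real.log 8 + 1 / 10 * Real.log k)

lemma Num.k0 {k c1 b : ℝ} (h : Num k c1 b) : 0 < k := by linarith [h.k2]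

lemma eventually_num {c1 b : ℝ} (hc1 : 0 < c1) (hb0 : 0 ≤ b) (hb1 : b < 1) :
    ∀ᶠ k in atTop, Num k c1 b := by
  have t1 : ∀ e : ℝ, 0 < e → ∀ C : ℝ, ∀ᶠ k : ℝ in atTop, C ≤ k ^ e := fun e he C =>
    (tendsto_rpow_atTop he).eventually_ge_atTop C
  have t2 : ∀ᶠ k : ℝ in atTop, Real.log 8 * 100000 ≤ Real.log k :=
    Real.tendsto_log_atTop.eventually_ge_atTop _
  have t3 : Tendsto (fun k : ℝ => c1 * k ^ (b - 1)) atTop (nhds (c1 * 0)) := by
    have : Tendsto (fun k : ℝ => k ^ (-(1 - b))) atTop (nhds 0) :=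
      tendsto_rpow_neg_atTop (by linarith)
    have e : (fun k : ℝ => c1 * k ^ (b - 1)) = fun k : ℝ => c1 * k ^ (-(1 - b)) := by
      funext k; congr 2; ring
    rw [e]
    exact this.const_mul c1
  rw [mul_zero] at t3
  filter_upwards [eventually_ge_atTop (2 : ℝ), t1 (1 / 2) (by norm_num) 8,
    t1 (8 / 10) (by norm_num) 9, t1 (13 / 10) (by norm_num) (36 * 3),
    t1 (12 / 10) (by norm_num) (192 / c1 * 3), t2, t3.eventually_le_const (by norm_num : (0:ℝ) < 1)]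
    with k h2 h8 h9 hs hr hlog h1
  have hk0 : 0 < k := by linarith
  have hsq : Real.sqrt (8 * k) ≤ 3 * k ^ (1 / 2 : ℝ) := by
    rw [← Real.sqrt_eq_rpow]
    have : Real.sqrt (8 * k) = Real.sqrt 8 * Real.sqrt k := Real.sqrt_mul (by norm_num) k
    rw [this]
    refine mul_le_mul_of_nonneg_right ?_ (Real.sqrt_nonneg _)
    rw [Real.sqrt_le_left (by norm_num)]; norm_num
  have e2 : (k ^ (9 / 10 : ℝ)) ^ 2 = k ^ (18 / 10 : ℝ) := by
    rw [← Real.rpow_natCast, ← Real.rpow_mul hk0.le]; norm_num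
  have e3 : (k ^ (9 / 10 : ℝ)) ^ 3 = k ^ (27 / 10 : ℝ) := by
    rw [← Real.rpow_natCast, ← Real.rpow_mul hk0.le]; norm_num
  refine ⟨h2, h8, ?_, ?_, ?_, h1, ?_⟩
  · rw [e2]
    have : k ^ (18 / 10 : ℝ) = k ^ (8 / 10 : ℝ) * k := by
      rw [← Real.rpow_add_one hk0.ne']; norm_num
    rw [this]
    nlinarith
  · rw [e2]
    have : k ^ (18 / 10 : ℝ) = k ^ (13 / 10 : ℝ) * k ^ (1 / 2 : ℝ) := by
      rw [← Real.rpow_add hk0]; norm_num
    rw [this]
    have h5 : 0 ≤ k ^ (1 / 2 : ℝ) := by positivity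
    nlinarith
  · rw [e3]
    have e4 : 192 / (c1 * k ^ (b - 1)) = 192 / c1 * k ^ (1 - b) := by
      have : k ^ (1 - b) = (k ^ (b - 1))⁻¹ := by
        rw [← Real.rpow_neg hk0.le]; congr 1; ring
      rw [this]
      field_simp
    rw [e4]
    have h5 : k ^ (27 / 10 : ℝ) = k ^ (12 / 10 : ℝ) * (k ^ (1 : ℝ) * k ^ (1 / 2 : ℝ)) := by
      rw [← Real.rpow_add hk0, ← Real.rpow_add hk0]; norm_num
    have h6 : k ^ (1 - b) ≤ k ^ (1 : ℝ) :=
      Real.rpow_le_rpow_of_exponent_le (by linarith) (by linarith)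
    have h7 : 0 ≤ k ^ (1 / 2 : ℝ) := by positivity
    have h8' : 0 ≤ k ^ (1 - b) := by positivity
    rw [h5]
    calc 192 / c1 * k ^ (1 - b) * Real.sqrt (8 * k)
        ≤ 192 / c1 * k ^ (1 - b) * (3 * k ^ (1 / 2 : ℝ)) :=
          mul_le_mul_of_nonneg_left hsq (by positivity)
      _ = (192 / c1 * 3) * (k ^ (1 - b) * k ^ (1 / 2 : ℝ)) := by ring
      _ ≤ (192 / c1 * 3) * (k ^ (1 : ℝ) * k ^ (1 / 2 : ℝ)) :=
          mul_le_mul_of_nonneg_left (mul_le_mul_of_nonneg_right h6 h7) (by positivity)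
      _ ≤ _ := mul_le_mul_of_nonneg_right hr (by positivity)
  · have := Real.log_nonneg (by norm_num : (1 : ℝ) ≤ 8)
    linarith

/-- Few non-levels from the growth `k^((1-d) L)` at one place. -/
lemma Num.nonLev_le {k c1 b : ℝ} (hn : Num k c1 b) {P : ℕ → ℝ}
    (h : Rates (k ^ (9 / 10 : ℝ)) (8 * k) P) {L : ℕ} (hL : 1000 ≤ L)
    (hP : k ^ ((1 - 1 / 1000) * (L : ℝ)) ≤ |P (L + 1)|) :
    ((nonLev (k ^ (9 / 10 : ℝ)) P (L + 1)).card : ℝ) ≤ 9 / 400 * (L + 1) := by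
  have hk0 := hn.k0
  have hk1 : 1 ≤ k := by linarith [hn.k2]
  have hlk : 0 ≤ Real.log k := Real.log_nonneg hk1
  have hL' : (1000 : ℝ) ≤ L := by exact_mod_cast hL
  set Q : ℝ := k ^ (1 - 2 / 1000 : ℝ) with hQ
  have hQ0 : 0 < Q := by positivity
  have h1 : Q ^ (L + 1) ≤ |P (L + 1)| := by
    refine le_trans ?_ hP
    rw [hQ, ← Real.rpow_natCast, ← Real.rpow_mul hk0.le]
    refine Real.rpow_le_rpow_of_exponent_le hk1 ?_
    push_cast
    nlinarith
  have h2 := h.nonLev_le (by omega) hQ0 h1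
  have hlE : Real.log (8 * k / k ^ (9 / 10 : ℝ)) = Real.log 8 + 1 / 10 * Real.log k := by
    rw [Real.log_div (by positivity) (by positivity), Real.log_mul (by norm_num) hk0.ne',
      Real.log_rpow hk0]; ring
  have hlQ : Real.log (8 * k / Q) = Real.log 8 + 2 / 1000 * Real.log k := by
    rw [Real.log_div (by positivity) (by positivity), Real.log_mul (by norm_num) hk0.ne', hQ,
      Real.log_rpow hk0]; ring
  rw [hlE, hlQ] at h2
  have h8 : 0 < Real.log 8 := Real.log_pos (by norm_num)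
  have hpos : 0 < Real.log 8 + 1 / 10 * Real.log k := by positivity
  have h3 : ((L + 1 : ℕ) : ℝ) * (Real.log 8 + 2 / 1000 * Real.log k) ≤
      ((L + 1 : ℕ) : ℝ) * (9 / 400 * (Real.log 8 + 1 / 10 * Real.log k)) :=
    mul_le_mul_of_nonneg_left hn.hlog (by positivity)
  have h4 := h2.trans h3
  have h5 : ((nonLev (k ^ (9 / 10 : ℝ)) P (L + 1)).card : ℝ) *
      (Real.log 8 + 1 / 10 * Real.log k) ≤
      (9 / 400 * (L + 1)) * (Real.log 8 + 1 / 10 * Real.log k) := by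
    push_cast at h4
    linarith
  exact le_of_mul_le_mul_right h5 hpos

open Classical in
/-- **PEAK-ABS on the line**, with the zone statement as hypothesis. -/
theorem peak_line {k c1 b : ℝ} (hn : Num k c1 b) (hc1 : 0 < c1) (c : ℝ) {L L' R : ℕ}
    (hR : 10000 ≤ R) (hL1 : R ≤ 2 * L) (hL2 : L ≤ 2 * R) (hL1' : R ≤ 2 * L' + 2)
    (hL2' : L' ≤ 2 * R)
    (G G' : Set ℕ)
    (hG : 200 * ((Icc 1 (L + 1)).filter fun r => r ∉ G).card ≤ R)
    (hG' : 200 * ((Icc 1 (L' + 1)).filter fun r => r ∉ G').card ≤ R)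
    {S : Set ℝ} (hS : S ⊆ Set.Ico (0 : ℝ) 1)
    (hgr : ∀ t ∈ S, k ^ ((1 - 1 / 1000) * (L : ℝ)) ≤ |rt k c t (L + 1)|)
    (hgl : ∀ t ∈ S, k ^ ((1 - 1 / 1000) * (L' : ℝ)) ≤ |lt k c t (L' + 1)|)
    (hZ : ∀ t ∈ S, ∀ r p, 3 ≤ r → 4 * r ≤ R →
      Matched (k ^ (9 / 10 : ℝ)) (8 * k) (rt k c t) (lt k c t) G G' r p →
      ∃ a b', t - 3 / min |rt k c t r| |lt k c t p| ≤ a ∧
        b' ≤ t + 3 / min |rt k c t r| |lt k c t p| ∧
        (c1 * k ^ (b - 1)) * (3 / min |rt k c t r| |lt k c t p|) ≤ b' - a ∧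
        Disjoint (Set.Ioo a b') S) :
    volume S ≤ ENNReal.ofReal (3 * (1 - (c1 * k ^ (b - 1)) / 24) ^ (R / 48 / 2)) := by
  have hk0 := hn.k0
  have hk2 := hn.k2
  have hk1 : 1 ≤ k := by linarith
  set E : ℝ := k ^ (9 / 10 : ℝ) with hE
  have hE1 : 1 < E := by
    rw [hE]; exact Real.one_lt_rpow (by linarith) (by norm_num)
  have hEk : E ≤ k := by
    calc E ≤ k ^ (1 : ℝ) := Real.rpow_le_rpow_of_exponent_le hk1 (by norm_num)
      _ = k := Real.rpow_one k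
  have hEB : E ≤ 8 * k := by linarith
  set h := c1 * k ^ (b - 1) with hh
  have h0 : 0 < h := by positivity
  obtain ⟨g, hg1, hg2⟩ : ∃ g : ℕ, 48 ≤ h * 2 ^ g ∧ h * 2 ^ g ≤ 96 := by
    classical
    have hex : ∃ g : ℕ, 48 ≤ h * 2 ^ g := by
      obtain ⟨g, hg⟩ := pow_unbounded_of_one_lt (48 / h) (by norm_num : (1 : ℝ) < 2)
      refine ⟨g, ?_⟩
      rw [div_lt_iff₀ h0] at hg
      linarith
    refine ⟨Nat.find hex, Nat.find_spec hex, ?_⟩
    rcases Nat.eq_zero_or_pos (Nat.find hex) with h3 | h3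
    · rw [h3]; simp; linarith [hn.h1]
    · have h4 := Nat.find_min hex (Nat.sub_lt h3 Nat.one_pos)
      push Not at h4
      have e : Nat.find hex = (Nat.find hex - 1) + 1 := by omega
      rw [e, pow_succ]
      linarith
  have hratio : 2 ^ (g + 1) * Real.sqrt (8 * k) ≤ E ^ 3 := by
    refine le_trans ?_ hn.hr
    refine mul_le_mul_of_nonneg_right ?_ (Real.sqrt_nonneg _)
    rw [le_div_iff₀ h0, pow_succ]
    linarith
  have hLr : 1000 ≤ L := by omega
  have hLr' : 1000 ≤ L' := by omega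
  have hRR : (10000 : ℝ) ≤ R := by exact_mod_cast hR
  refine volume_le_of_holes (E := E) (B := 8 * k) (h := h) (g := g) (N := R / 48) (L := L' + 1)
    (L1 := R / 4) hS (rt k c) (lt k c) G G' (fun t _ => rates_rt hk2 hE1 hEB c t)
    (fun t _ => rates_lt hk2 hE1 hEB c t) hn.hB hn.hs hratio h0 hn.h1 hg1 (by omega) ?_ ?_ ?_
  · -- range of the partners
    intro t ht
    refine le_trans ?_ ((hgl t ht).trans (abs_le_env (rates_lt hk2 hE1 hEB c t).zero _))
    have h8k : 8 * k ≤ k ^ (3 / 2 : ℝ) := by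
      have : k ^ (3 / 2 : ℝ) = k ^ (1 / 2 : ℝ) * k := by
        rw [← Real.rpow_add_one hk0.ne']; norm_num
      rw [this]
      nlinarith [hn.k8]
    calc (8 * k) ^ (R / 4 - 1) ≤ (k ^ (3 / 2 : ℝ)) ^ (R / 4 - 1) :=
          pow_le_pow_left₀ (by positivity) h8k _
      _ = k ^ (3 / 2 * ((R / 4 - 1 : ℕ) : ℝ)) := by
          rw [← Real.rpow_natCast, ← Real.rpow_mul hk0.le]
      _ ≤ _ := by
          refine Real.rpow_le_rpow_of_exponent_le hk1 ?_
          have e1 : (((R / 4 - 1 : ℕ) : ℝ)) ≤ (R : ℝ) / 4 := by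
            have h4 : (R / 4 - 1 : ℕ) ≤ R / 4 := by omega
            have h5 : ((R / 4 : ℕ) : ℝ) ≤ (R : ℝ) / 4 := Nat.cast_div_le
            have h6 : ((R / 4 - 1 : ℕ) : ℝ) ≤ ((R / 4 : ℕ) : ℝ) := by exact_mod_cast h4
            linarith
          have e2 : (R : ℝ) ≤ 2 * L' + 2 := by exact_mod_cast hL1'
          nlinarith
  · intro t ht
    have hb1 := hn.nonLev_le (rates_rt hk2 hE1 hEB c t) hLr (hgr t ht)
    have hb2 := hn.nonLev_le (rates_lt hk2 hE1 hEB c t) hLr' (hgl t ht)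
    rw [← hE] at hb1 hb2
    have e1 : (L : ℝ) ≤ 2 * R := by exact_mod_cast hL2
    have e2 : (L' : ℝ) ≤ 2 * R := by exact_mod_cast hL2'
    have c1' : (nonLev E (rt k c t) (L + 1)).card ≤ R * 46 / 1000 := by
      rw [Nat.le_div_iff_mul_le (by norm_num)]
      have : ((nonLev E (rt k c t) (L + 1)).card : ℝ) * 1000 ≤ R * 46 := by nlinarith
      exact_mod_cast this
    have c2' : (nonLev E (lt k c t) (L' + 1)).card ≤ R * 46 / 1000 := by
      rw [Nat.le_div_iff_mul_le (by norm_num)]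
      have : ((nonLev E (lt k c t) (L' + 1)).card : ℝ) * 1000 ≤ R * 46 := by nlinarith
      exact_mod_cast this
    refine count_of_nonLev' (L := L + 1) (by omega) (rates_lt hk2 hE1 hEB c t).isLevel_one c1' c2'
      (show _ ≤ R / 200 by omega) (show _ ≤ R / 200 by omega) ?_
    omega
  · intro t ht r p h3 h4 hm
    exact hZ t ht r p h3 (by omega) hm

end Vale.Agent.P108.H442
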