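import Vale.Agent.P108.Area.Coord
import Vale.Agent.P108.H504.Mirror
import Vale.Agent.P108.Dyn.Rev

/-!
# P108: shift and reflection of the probing line
-/

namespace Vale.Agent.P108.H442

open Vale.Agent.P108 Vale.Agent.P108.Dyn Vale.Agent.P108.H504 Vale.Agent.P108.H786
  Vale.Agent.P108.Area

lemma S_shift (a : ℤ → ℝ) (s p : ℤ) : ∀ n : ℕ, S (fun l => a (l + s)) p n = S a (p + s) n
  | 0 => rfl
  | 1 => rfl
  | (n + 2) => by
    rw [S_succ, S_succ, S_shift a s p (n + 1), S_shift a s p n]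
    congr 3
    ring

lemma D_shift (a : ℤ → ℝ) (s p q : ℤ) : D (fun l => a (l + s)) p q = D a (p + s) (q + s) := by
  unfold D
  rw [S_shift]
  congr 2
  ring

/-- the line through `x_{m-1} = w.1`, `x_m = w.2` is the shifted standard line -/
lemma orb_pt_shift (k : ℝ) (m : ℤ) (w : ℝ × ℝ) (i : ℤ) :
    orb k (pt k m w) i = orb k (pt k 1 w) (i - m + 1) := by
  unfold pt
  rw [orb_Fz, orb_Fz]
  congr 1
  ring

lemma ao_pt_shift (k : ℝ) (m : ℤ) (w : ℝ × ℝ) (i : ℤ) :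
    ao k (pt k m w) i = ao k (pt k 1 w) (i - m + 1) := by
  unfold ao; rw [orb_pt_shift]

lemma D_pt_shift (k : ℝ) (m : ℤ) (w : ℝ × ℝ) (p q : ℤ) :
    D (ao k (pt k m w)) p q = D (ao k (pt k 1 w)) (p - m + 1) (q - m + 1) := by
  have h : ao k (pt k m w) = fun l => ao k (pt k 1 w) (l + (1 - m)) := by
    funext l; rw [ao_pt_shift]; congr 1; ring
  rw [h, D_shift]
  congr 1 <;> ring

/-- reflection at the frozen site `0` -/
lemma orb_pt_refl (k c t : ℝ) (i : ℤ) :
    orb k (pt k 1 (c, t)) (-i) = orb k (pt k 1 (c, phi k c - t)) i := by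
  have h0 : orb k (pt k 1 (c, t)) 0 = c := by
    have := orb_pt_pred k 1 (c, t); simpa using this
  have h1 : orb k (pt k 1 (c, t)) 1 = t := orb_pt_self k 1 (c, t)
  have h0' : orb k (pt k 1 (c, phi k c - t)) 0 = c := by
    have := orb_pt_pred k 1 (c, phi k c - t); simpa using this
  have h1' : orb k (pt k 1 (c, phi k c - t)) 1 = phi k c - t :=
    orb_pt_self k 1 (c, phi k c - t)
  have hm : orb k (pt k 1 (c, t)) (-1) = phi k c - t := by
    have := orb_rec k (pt k 1 (c, t)) 0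
    rw [zero_add, zero_sub, h0, h1] at this
    linarith
  have key : Rv k (pt k 1 (c, t)) = pt k 1 (c, phi k c - t) := by
    refine eq_pt (j := 1) ?_ ?_
    · rw [orb_Rv]; simpa using h0
    · rw [orb_Rv]; exact hm
  rw [← orb_Rv, key]

lemma ao_pt_refl (k c t : ℝ) (i : ℤ) :
    ao k (pt k 1 (c, t)) (-i) = ao k (pt k 1 (c, phi k c - t)) i := by
  unfold ao; rw [orb_pt_refl]

lemma D_pt_refl (k c t : ℝ) (p q : ℤ) :
    D (ao k (pt k 1 (c, t))) (-q) (-p) = D (ao k (pt k 1 (c, phi k c - t))) p q := by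
  rw [← D_reflect]
  congr 1
  funext i
  exact ao_pt_refl k c t i

/-- `Σ(t) = a_0 - T_R(t) - T_L(t)`. -/
noncomputable def Sig (k c : ℝ) (L L' : ℤ) (t : ℝ) : ℝ :=
  FT.a k c - D (ao k (pt k 1 (c, t))) 2 L / D (ao k (pt k 1 (c, t))) 1 L -
    D (ao k (pt k 1 (c, phi k c - t))) 2 L' / D (ao k (pt k 1 (c, phi k c - t))) 1 L'

/-- **(S1)** cut at the frozen site. -/
theorem D_eq_Sig (k c t : ℝ) {L L' : ℤ} (hL : 1 ≤ L) (hL' : 1 ≤ L')
    (h1 : D (ao k (pt k 1 (c, t))) 1 L ≠ 0)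
    (h2 : D (ao k (pt k 1 (c, phi k c - t))) 1 L' ≠ 0) :
    D (ao k (pt k 1 (c, t))) (-L') L =
      D (ao k (pt k 1 (c, phi k c - t))) 1 L' * D (ao k (pt k 1 (c, t))) 1 L *
        Sig k c L L' t := by
  set a := ao k (pt k 1 (c, t)) with ha
  have h0 : a 0 = FT.a k c := by
    rw [ha]; unfold ao
    have := orb_pt_pred k 1 (c, t)
    rw [sub_self] at this
    rw [this]
  have e1 : D (ao k (pt k 1 (c, phi k c - t))) 1 L' = D a (-L') (-1) := by
    rw [ha, ← D_pt_refl]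
  have e2 : D (ao k (pt k 1 (c, phi k c - t))) 2 L' = D a (-L') (-2) := by
    rw [ha, ← D_pt_refl]
  have c1 := D_concat a (p := -L') (q := L) (j := 0) (by omega) (by omega)
  have c2 := D_right a (p := -L') (q := 0) (by omega)
  rw [e1] at h2
  norm_num at c1 c2
  have hS : Sig k c L L' t = a 0 - D a 2 L / D a 1 L - D a (-L') (-2) / D a (-L') (-1) := by
    unfold Sig
    rw [e1, e2, h0]
  rw [hS, e1, c1, c2]
  field_simp
  ring

end Vale.Agent.P108.H442
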