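import Vale.Agent.P108.H442.PeakLine
import Vale.Agent.P108.H442.Reflect

/-!
# P108 [SLICE]: the peak event on a coordinate line has small measure
-/

namespace Vale.Agent.P108.H442

open Finset MeasureTheory Filter
open Vale.Agent.P108 Vale.Agent.P108.Dyn Vale.Agent.P108.H504 Vale.Agent.P108.H786
  Vale.Agent.P108.Area

/-- The zone statement: at a pair of levels of comparable rates there is a hole. -/
def ZoneAt (k c1 b β : ℝ) : Prop :=
  ∀ (c t0 : ℝ) (L L' : ℕ) (S : Set ℝ) (r p : ℕ), 2 ≤ r → r ≤ L → 2 ≤ p → p ≤ L' →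
    IsLevel (k ^ (9 / 10 : ℝ)) (rt k c t0) r → IsLevel (k ^ (9 / 10 : ℝ)) (lt k c t0) p →
    |rt k c t0 r| ≤ Real.sqrt (8 * k) * |lt k c t0 p| →
    |lt k c t0 p| ≤ Real.sqrt (8 * k) * |rt k c t0 r| →
    (∀ t ∈ S, rt k c t (L + 1) ≠ 0) → (∀ t ∈ S, lt k c t (L' + 1) ≠ 0) →
    (∀ t ∈ S, |D (ao k (pt k 1 (c, t))) (r + 2) L| ≤
      k ^ (-β / 2) * |D (ao k (pt k 1 (c, t))) (r + 1) L|) →
    (∀ t ∈ S, |D (ao k (pt k 1 (c, phi k c - t))) (p + 2) L'| ≤
      k ^ (-β / 2) * |D (ao k (pt k 1 (c, phi k c - t))) (p + 1) L'|) →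
    (∀ t ∈ S, |Sig k c L L' t| * min |rt k c t0 r| |lt k c t0 p| ^ 2 ≤ k⁻¹) →
    ∃ a b', t0 - 3 / min |rt k c t0 r| |lt k c t0 p| ≤ a ∧
        b' ≤ t0 + 3 / min |rt k c t0 r| |lt k c t0 p| ∧
        (c1 * k ^ (b - 1)) * (3 / min |rt k c t0 r| |lt k c t0 p|) ≤ b' - a ∧
        Disjoint (Set.Ioo a b') S

/-- The peak event of `z`: frozen site `m - 1`, window `[i',j']`, good tail sites `G` (right),
`G'` (left), size `R`. -/
structure PeakEv (k β : ℝ) (m i' j' : ℤ) (G G' : Set ℤ) (R : ℕ) (z : ℝ × ℝ) : Prop where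
  p1r : k ^ ((1 - 1 / 1000) * ((j' + 1 - m : ℤ) : ℝ)) ≤ |D (ao k z) m j'|
  p1l : k ^ ((1 - 1 / 1000) * ((m - 1 - i' : ℤ) : ℝ)) ≤ |D (ao k z) i' (m - 2)|
  p2r : ∀ r ∈ G, |D (ao k z) (r + 2) j'| ≤ k ^ (-β / 2) * |D (ao k z) (r + 1) j'|
  p2l : ∀ l ∈ G', |D (ao k z) i' (l - 2)| ≤ k ^ (-β / 2) * |D (ao k z) i' (l - 1)|
  p3 : |D (ao k z) i' j'| ≤
    k ^ (-(59 / 100) * (R : ℝ)) * (|D (ao k z) i' (m - 2)| * |D (ao k z) m j'|)

open Classical in
/-- **[SLICE]** -/
theorem slice {k c1 b β : ℝ} (hn : Num k c1 b) (hc1 : 0 < c1) (hz : ZoneAt k c1 b β)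
    (hk8 : 8 ≤ k ^ (1 / 10 : ℝ)) {m i' j' : ℤ} {R : ℕ} (hR : 10000 ≤ R) {G G' : Set ℤ}
    (hj1 : (R : ℤ) ≤ 2 * (j' + 1 - m)) (hj2 : j' + 1 - m ≤ 2 * R)
    (hi1 : (R : ℤ) ≤ 2 * (m - i')) (hi2 : m - 1 - i' ≤ 2 * R)
    (hG : 200 * ((Icc m (j' + 1)).filter fun r => ¬ (r ∈ G ∧ r ≤ j')).card ≤ R)
    (hG' : 200 * ((Icc (i' - 1) (m - 2)).filter fun l => ¬ (l ∈ G' ∧ i' ≤ l)).card ≤ R)
    (c : ℝ) {S : Set ℝ} (hS : S ⊆ Set.Ico (0 : ℝ) 1)
    (hev : ∀ t ∈ S, PeakEv k β m i' j' G G' R (pt k m (c, t))) :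
    volume S ≤ ENNReal.ofReal (3 * (1 - (c1 * k ^ (b - 1)) / 24) ^ (R / 48 / 2)) := by
  have hk0 := hn.k0
  have hk1 : 1 ≤ k := by linarith [hn.k2]
  obtain ⟨L, hL⟩ : ∃ L : ℕ, (L : ℤ) = j' + 1 - m := ⟨(j' + 1 - m).toNat, by omega⟩
  obtain ⟨L', hL'⟩ : ∃ L' : ℕ, (L' : ℤ) = m - 1 - i' := ⟨(m - 1 - i').toNat, by omega⟩
  obtain ⟨Gr, hGr⟩ : ∃ Gr : Set ℕ, ∀ r, r ∈ Gr ↔ (r : ℤ) + m - 1 ∈ G ∧ r ≤ L :=
    ⟨{r | (r : ℤ) + m - 1 ∈ G ∧ r ≤ L}, fun _ => Iff.rfl⟩
  obtain ⟨Gl, hGl⟩ : ∃ Gl : Set ℕ, ∀ p, p ∈ Gl ↔ m - 1 - (p : ℤ) ∈ G' ∧ p ≤ L' :=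
    ⟨{p | m - 1 - (p : ℤ) ∈ G' ∧ p ≤ L'}, fun _ => Iff.rfl⟩
  -- translation of the continuants
  have tr : ∀ t p q, D (ao k (pt k m (c, t))) p q =
      D (ao k (pt k 1 (c, t))) (p - m + 1) (q - m + 1) := fun t p q => D_pt_shift k m (c, t) p q
  have tl : ∀ t p q, D (ao k (pt k m (c, t))) p q =
      D (ao k (pt k 1 (c, phi k c - t))) (m - 1 - q) (m - 1 - p) := by
    intro t p q
    rw [tr, ← D_pt_refl]
    congr 1 <;> ring
  have er : ∀ t, rt k c t (L + 1) = D (ao k (pt k m (c, t))) m j' := by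
    intro t
    unfold rt
    rw [tr]
    congr 1
    · ring
    · push_cast; rw [hL]; ring
  have el : ∀ t, lt k c t (L' + 1) = D (ao k (pt k m (c, t))) i' (m - 2) := by
    intro t
    unfold lt rt
    rw [tl]
    congr 1
    · ring
    · push_cast; rw [hL']; ring
  have cr : ((Icc 1 (L + 1)).filter fun r => r ∉ Gr).card ≤
      ((Icc m (j' + 1)).filter fun r => ¬ (r ∈ G ∧ r ≤ j')).card := by
    refine card_le_card_of_injOn (fun r : ℕ => (r : ℤ) + m - 1) ?_ ?_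
    · intro r hr
      simp only [coe_filter, Set.mem_setOf_eq, mem_Icc] at hr ⊢
      refine ⟨⟨by omega, by omega⟩, fun h => hr.2 ((hGr r).2 ⟨h.1, by omega⟩)⟩
    · intro x _ y _ h
      simp only at h
      omega
  have cl : ((Icc 1 (L' + 1)).filter fun r => r ∉ Gl).card ≤
      ((Icc (i' - 1) (m - 2)).filter fun l => ¬ (l ∈ G' ∧ i' ≤ l)).card := by
    refine card_le_card_of_injOn (fun r : ℕ => m - 1 - (r : ℤ)) ?_ ?_
    · intro r hr
      simp only [coe_filter, Set.mem_setOf_eq, mem_Icc] at hr ⊢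
      refine ⟨⟨by omega, by omega⟩, fun h => hr.2 ((hGl r).2 ⟨h.1, by omega⟩)⟩
    · intro x _ y _ h
      simp only at h
      omega
  have hpos : ∀ t ∈ S, 0 < |rt k c t (L + 1)| ∧ 0 < |lt k c t (L' + 1)| := by
    intro t ht
    rw [er, el]
    exact ⟨lt_of_lt_of_le (by positivity) (hev t ht).p1r,
      lt_of_lt_of_le (by positivity) (hev t ht).p1l⟩
  refine peak_line hn hc1 c (L := L) (L' := L') hR (by omega) (by omega) (by omega) (by omega)
    Gr Gl (by omega) (by omega) hS ?_ ?_ ?_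
  · intro t ht
    rw [er]
    have := (hev t ht).p1r
    rwa [← hL] at this
  · intro t ht
    rw [el]
    have := (hev t ht).p1l
    rwa [← hL'] at this
  · intro t0 ht0 r p h3 h4 hm
    obtain ⟨l1, g1, l2, g2, q1, q2⟩ := hm
    rw [hGr] at g1
    rw [hGl] at g2
    have hp2 : 2 ≤ p := by
      by_contra hp
      have hp1 : p = 1 := by have := l2.1; omega
      subst hp1
      have hE1 : 1 < k ^ (9 / 10 : ℝ) := Real.one_lt_rpow (by linarith [hn.k2]) (by norm_num)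
      have hEB : k ^ (9 / 10 : ℝ) ≤ 8 * k := by
        have : k ^ (9 / 10 : ℝ) ≤ k ^ (1 : ℝ) :=
          Real.rpow_le_rpow_of_exponent_le hk1 (by norm_num)
        rw [Real.rpow_one] at this
        linarith
      have e1 := (rates_rt hn.k2 hE1 hEB c t0).level_ge l1
      have e2 : (k ^ (9 / 10 : ℝ)) ^ 2 ≤ (k ^ (9 / 10 : ℝ)) ^ (r - 1) :=
        pow_le_pow_right₀ hE1.le (by omega)
      have e3 : |lt k c t0 1| = 1 := (rates_lt hn.k2 hE1 hEB c t0).one
      rw [e3, mul_one] at q1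
      have e4 := hn.hB
      have e5 : Real.sqrt (8 * k) ≤ 8 * k := by
        rw [Real.sqrt_le_left (by linarith)]
        nlinarith
      linarith
    refine hz c t0 L L' S r p (by omega) g1.2 hp2 g2.2 l1 l2 q1 q2
      (fun t ht => abs_pos.1 (hpos t ht).1) (fun t ht => abs_pos.1 (hpos t ht).2) ?_ ?_ ?_
    · intro t ht
      have := (hev t ht).p2r _ g1.1
      rw [tr, tr] at this
      have e1 : (r : ℤ) + m - 1 + 2 - m + 1 = r + 2 := by ring
      have e2 : (r : ℤ) + m - 1 + 1 - m + 1 = r + 1 := by ring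
      have e3 : j' - m + 1 = (L : ℤ) := by rw [hL]; ring
      rwa [e1, e2, e3] at this
    · intro t ht
      have := (hev t ht).p2l _ g2.1
      rw [tl, tl] at this
      have e1 : m - 1 - (m - 1 - (p : ℤ) - 2) = p + 2 := by ring
      have e2 : m - 1 - (m - 1 - (p : ℤ) - 1) = p + 1 := by ring
      rwa [e1, e2, ← hL'] at this
    · intro t ht
      have h3' := (hev t ht).p3
      have e1 := D_eq_Sig k c t (L := L) (L' := L') (by omega) (by omega) ?_ ?_
      · have e2 : D (ao k (pt k m (c, t))) i' j' = D (ao k (pt k 1 (c, t))) (-(L' : ℤ)) L := by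
          rw [tr, hL, hL']; congr 1 <;> ring
        have f1 : D (ao k (pt k 1 (c, t))) 1 L = rt k c t (L + 1) := by
          unfold rt; congr 1; push_cast; ring
        have f2 : D (ao k (pt k 1 (c, phi k c - t))) 1 L' = lt k c t (L' + 1) := by
          unfold lt rt; congr 1; push_cast; ring
        rw [e2, e1, f1, f2, ← er, ← el, abs_mul, abs_mul, mul_comm] at h3'
        obtain ⟨hp1, hp2⟩ := hpos t ht
        have hs : |Sig k c L L' t| ≤ k ^ (-(59 / 100) * (R : ℝ)) :=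
          le_of_mul_le_mul_right h3' (by positivity)
        -- size of the slower rate
        have hE1 : 1 < k ^ (9 / 10 : ℝ) := Real.one_lt_rpow (by linarith [hn.k2]) (by norm_num)
        have hEB : k ^ (9 / 10 : ℝ) ≤ 8 * k := by
          have : k ^ (9 / 10 : ℝ) ≤ k ^ (1 : ℝ) :=
            Real.rpow_le_rpow_of_exponent_le hk1 (by norm_num)
          rw [Real.rpow_one] at this
          linarith
        have hm1 : min |rt k c t0 r| |lt k c t0 p| ≤ k ^ (11 / 10 * ((R : ℝ) / 4)) := by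
          refine (min_le_left _ _).trans ?_
          have hR0 := rates_rt hn.k2 hE1 hEB c t0
          have e5 := (abs_le_env (E := k ^ (9 / 10 : ℝ)) hR0.zero r).trans
            (hR0.env_le_pow le_rfl (by omega : 1 ≤ r))
          rw [env_one hR0.one, mul_one] at e5
          refine e5.trans ?_
          have h8k : 8 * k ≤ k ^ (11 / 10 : ℝ) := by
            have : k ^ (11 / 10 : ℝ) = k ^ (1 / 10 : ℝ) * k := by
              rw [← Real.rpow_add_one hk0.ne']; norm_num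
            rw [this]
            nlinarith
          calc (8 * k) ^ (r - 1) ≤ (k ^ (11 / 10 : ℝ)) ^ (r - 1) :=
                pow_le_pow_left₀ (by positivity) h8k _
            _ = k ^ (11 / 10 * ((r - 1 : ℕ) : ℝ)) := by
                rw [← Real.rpow_natCast, ← Real.rpow_mul hk0.le]
            _ ≤ _ := by
                refine Real.rpow_le_rpow_of_exponent_le hk1 ?_
                have e1 : ((r - 1 : ℕ) : ℝ) ≤ (R : ℝ) / 4 := by
                  rw [le_div_iff₀ (by norm_num)]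
                  have : (r - 1) * 4 ≤ R := by omega
                  exact_mod_cast this
                linarith
        have h0 : 0 ≤ min |rt k c t0 r| |lt k c t0 p| := le_min (abs_nonneg _) (abs_nonneg _)
        calc |Sig k c L L' t| * min |rt k c t0 r| |lt k c t0 p| ^ 2
            ≤ k ^ (-(59 / 100) * (R : ℝ)) * (k ^ (11 / 10 * ((R : ℝ) / 4))) ^ 2 := by gcongr
          _ = k ^ (-(59 / 100) * (R : ℝ) + 11 / 10 * ((R : ℝ) / 4) * 2) := by
              rw [Real.rpow_add hk0, Real.rpow_mul hk0.le _ 2]; norm_num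
          _ ≤ k ^ (-1 : ℝ) := by
              refine Real.rpow_le_rpow_of_exponent_le hk1 ?_
              have : (10000 : ℝ) ≤ R := by exact_mod_cast hR
              linarith
          _ = k⁻¹ := Real.rpow_neg_one k
      · have := (hpos t ht).1
        rw [er, tr] at this
        have h := abs_pos.1 this
        have e3 : j' - m + 1 = (L : ℤ) := by rw [hL]; ring
        rwa [sub_self, zero_add, e3] at h
      · have := (hpos t ht).2
        rw [el, tl] at this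
        have h := abs_pos.1 this
        have e3 : m - 1 - (m - 2) = 1 := by ring
        rwa [e3, ← hL'] at h

end Vale.Agent.P108.H442
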